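import Vale.Agent.P054.T3.H109.ZeroLines
import Vale.Agent.P054.T2.H686.Setup

set_option autoImplicit false
set_option linter.all false

/-!
# P054 / T3 / H109: many edges between pairs on poor lines, with absolute constants

`card_good_const`, `card_edges₀_const`, `card_Ez_ge_const`: the log-free versions of
`H269.card_good_ge`, `H269.card_edges₀`, `H686.card_Ez_ge` (`C ≥ 2^14` is a constant).
-/

namespace Vale.Agent.P054.T3.H109

open Finset Vale.Agent.P054.T2.H686 Vale.Agent.P054.T2.H269

variable {n : ℕ}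

/-- most pairs lie on lines with at most `C` points, `C ≥ 2^14` a constant -/
theorem card_good_const (P : Finset (E n)) {C : ℕ} (hC : 2 ^ 14 ≤ C)
    (hP : 256 * (2 * (dists P).card + 1) ≤ P.card) :
    P.card ^ 2 ≤ 2 * (good P C).card := by
  classical
  set L := 2 * (dists P).card + 1 with hL
  have h1 := card_rich_pairs P L (fun p hp =>
    lineCard_le P (mem_offDiag.1 hp).1 (mem_offDiag.1 hp).2.2) 8
  set R := P.offDiag.filter fun p => 4 * (8 * 2 ^ 8 + 1) ≤ lineCard P p.1 p.2 with hR
  have h2 : P.offDiag ⊆ R ∪ good P C := by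
    intro p hp
    rw [mem_union]
    by_cases h : lineCard P p.1 p.2 ≤ C
    · exact Or.inr (mem_filter.2 ⟨hp, h⟩)
    · left
      rw [hR, mem_filter]
      refine ⟨hp, ?_⟩
      norm_num
      norm_num at hC
      omega
  have h3 := (card_le_card h2).trans (card_union_le _ _)
  rw [offDiag_card] at h3
  have h4 : P.card ≤ P.card * P.card := Nat.le_mul_self _
  have h5 : P.card * P.card ≤ R.card + (good P C).card + P.card := by omega
  norm_num at h1
  have h6 : 256 * P.card ≤ P.card * P.card := by nlinarith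
  have h7 : 256 * L * (256 * L) ≤ P.card * P.card := Nat.mul_le_mul hP hP
  have h8 : L ^ 2 = L * L := sq L
  have h9 : P.card ^ 2 = P.card * P.card := sq _
  rw [h8, h9] at h1
  rw [h9]
  nlinarith

/-- many edges between good pairs: `n⁴ ≤ 4 t |E₀|` -/
theorem card_edges₀_const (P : Finset (E n)) {C : ℕ} (hC : 2 ^ 14 ≤ C)
    (hP : 256 * (2 * (dists P).card + 1) ≤ P.card) :
    P.card ^ 4 ≤ 4 * ((dists P).card * (edges₀ P C).card) := by
  have h1 := card_good_const P hC hP
  have h2 := card_edges₀_ge P C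
  have h3 : (P.card ^ 2) ^ 2 ≤ (2 * (good P C).card) ^ 2 := Nat.pow_le_pow_left h1 2
  calc P.card ^ 4 = (P.card ^ 2) ^ 2 := by ring
    _ ≤ (2 * (good P C).card) ^ 2 := h3
    _ = 4 * (good P C).card ^ 2 := by ring
    _ ≤ 4 * ((dists P).card * (edges₀ P C).card) := Nat.mul_le_mul_left _ h2

/-- `|P|⁴ ≤ 4 t |E₀|`, with edges between pairs on lines with at most `C` points -/
theorem card_Ez_ge_const (P : Finset (E n)) (B : E n ≃ₗᵢ[ℝ] E n) {t C : ℕ}
    (ht : (dists P).card ≤ t) (hC : 2 ^ 14 ≤ C) (hP : 256 * (2 * t + 1) ≤ P.card) :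
    P.card ^ 4 ≤ 4 * (t * (Ez P B C).card) := by
  rw [card_Ez]
  refine (card_edges₀_const P hC (le_trans ?_ hP)).trans ?_
  · omega
  · exact Nat.mul_le_mul_left _ (Nat.mul_le_mul_right _ ht)

end Vale.Agent.P054.T3.H109
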