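import Vale.Agent.P054.T3.H109.Part
import Mathlib.Algebra.Order.Chebyshev

set_option autoImplicit false
set_option linter.all false

/-!
# P054 / T3 / H109: a line meets at most `D + 1` sign classes
-/

namespace Vale.Agent.P054.T3.H109

open Finset

/-- the sign vector of a family of univariate polynomials -/
noncomputable def sv {J : ℕ} (F : Fin J → Polynomial ℝ) (t : ℝ) : Fin J → Bool :=
  fun j => decide (0 < (F j).eval t)

theorem same_sign {F : Polynomial ℝ} {a b : ℝ} (hab : a < b)
    (h : ∀ r, a ≤ r → r ≤ b → F.eval r ≠ 0) : (0 < F.eval a ↔ 0 < F.eval b) := by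
  have ha := h a le_rfl hab.le
  have hb := h b hab.le le_rfl
  constructor
  · intro h1
    by_contra h2
    have h3 : F.eval b ≤ 0 := not_lt.1 h2
    obtain ⟨r, hr, hr0⟩ := intermediate_value_Icc' hab.le (F.continuous.continuousOn)
      (show (0:ℝ) ∈ Set.Icc (F.eval b) (F.eval a) from ⟨h3, h1.le⟩)
    exact h r hr.1 hr.2 hr0
  · intro h1
    by_contra h2
    have h3 : F.eval a ≤ 0 := not_lt.1 h2
    obtain ⟨r, hr, hr0⟩ := intermediate_value_Icc hab.le (F.continuous.continuousOn)
      (show (0:ℝ) ∈ Set.Icc (F.eval a) (F.eval b) from ⟨h3, h1.le⟩)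
    exact h r hr.1 hr.2 hr0

theorem card_image_le_of_factor {α β γ : Type*} [DecidableEq β] [DecidableEq γ] (T : Finset α)
    (f : α → β) (g : α → γ) (h : ∀ a ∈ T, ∀ b ∈ T, g a = g b → f a = f b) :
    (T.image f).card ≤ (T.image g).card := by
  classical
  rcases T.eq_empty_or_nonempty with rfl | ⟨t0, ht0⟩
  · simp
  let k : γ → β := fun c => if hc : ∃ t ∈ T, g t = c then f hc.choose else f t0
  have h1 : T.image f ⊆ (T.image g).image k := by
    intro b hb
    obtain ⟨t, ht, rfl⟩ := mem_image.1 hb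
    refine mem_image.2 ⟨g t, mem_image_of_mem _ ht, ?_⟩
    have hc : ∃ t' ∈ T, g t' = g t := ⟨t, ht, rfl⟩
    simp only [k]
    rw [dif_pos hc]
    exact h _ hc.choose_spec.1 _ ht hc.choose_spec.2
  exact (card_le_card h1).trans card_image_le

/-- a line meets at most `D + 1` sign classes -/
theorem card_image_sv {J : ℕ} (F : Fin J → Polynomial ℝ) (hF : ∀ j, F j ≠ 0) (T : Finset ℝ)
    (hT : ∀ t ∈ T, ∀ j, (F j).eval t ≠ 0) :
    (T.image (sv F)).card ≤ ∑ j, (F j).natDegree + 1 := by
  classical
  set g : Polynomial ℝ := ∏ j, F j with hg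
  have hg0 : g ≠ 0 := Finset.prod_ne_zero_iff.2 fun j _ => hF j
  set R := g.roots.toFinset with hR
  have hRc : R.card ≤ ∑ j, (F j).natDegree := by
    calc R.card ≤ g.roots.card := Multiset.toFinset_card_le _
      _ ≤ g.natDegree := Polynomial.card_roots' g
      _ ≤ ∑ j, (F j).natDegree := Polynomial.natDegree_prod_le _ _
  have hmem : ∀ r j, (F j).eval r = 0 → r ∈ R := by
    intro r j h
    rw [hR, Multiset.mem_toFinset, Polynomial.mem_roots hg0, Polynomial.IsRoot, hg,
      Polynomial.eval_prod]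
    exact Finset.prod_eq_zero (mem_univ j) h
  have key : ∀ a ∈ T, ∀ b ∈ T, a < b →
      (R.filter (fun r => r < a)).card = (R.filter (fun r => r < b)).card → sv F a = sv F b := by
    intro a ha b hb hab hcard
    have hsub : R.filter (fun r => r < a) ⊆ R.filter (fun r => r < b) := by
      intro r hr
      rw [mem_filter] at hr ⊢
      exact ⟨hr.1, hr.2.trans hab⟩
    have heq := Finset.eq_of_subset_of_card_le hsub hcard.ge
    funext j
    unfold sv
    have h1 : ∀ r, a ≤ r → r ≤ b → (F j).eval r ≠ 0 := by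
      intro r h1 h2 h3
      have h4 := hmem r j h3
      rcases eq_or_lt_of_le h2 with h5 | h5
      · rw [h5] at h3; exact hT b hb j h3
      · have h6 : r ∈ R.filter (fun r => r < b) := mem_filter.2 ⟨h4, h5⟩
        rw [← heq, mem_filter] at h6
        exact absurd h6.2 (not_lt.2 h1)
    have h2 := same_sign hab h1
    by_cases h3 : 0 < (F j).eval a
    · simp [h3, h2.1 h3]
    · have h4 : ¬ 0 < (F j).eval b := fun h => h3 (h2.2 h)
      simp [h3, h4]
  have h1 : (T.image (sv F)).card ≤
      (T.image fun t => (R.filter (fun r => r < t)).card).card := by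
    refine card_image_le_of_factor T _ _ ?_
    intro a ha b hb hab
    rcases lt_trichotomy a b with h | h | h
    · exact key a ha b hb h hab
    · rw [h]
    · exact (key b hb a ha h hab.symm).symm
  refine h1.trans ?_
  have h2 : (T.image fun t => (R.filter (fun r => r < t)).card) ⊆
      Finset.range (∑ j, (F j).natDegree + 1) := by
    intro k hk
    obtain ⟨t, _, rfl⟩ := mem_image.1 hk
    rw [mem_range]
    have := card_filter_le R (fun r => r < t)
    omega
  simpa using card_le_card h2

/-- Cauchy–Schwarz -/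
theorem sq_card_le_image_mul {α β : Type*} [DecidableEq α] [DecidableEq β] (S : Finset α)
    (f : α → β) :
    S.card ^ 2 ≤ (S.image f).card * ((S ×ˢ S).filter fun p => f p.1 = f p.2).card := by
  classical
  have h1 : S.card = ∑ b ∈ S.image f, (S.filter fun a => f a = b).card :=
    Finset.card_eq_sum_card_image f S
  have h2 : ((S ×ˢ S).filter fun p => f p.1 = f p.2).card =
      ∑ b ∈ S.image f, (S.filter fun a => f a = b).card ^ 2 := by
    rw [Finset.card_eq_sum_card_fiberwise (f := fun p => f p.1) (t := S.image f)]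
    · refine Finset.sum_congr rfl fun b _ => ?_
      rw [sq, ← card_product]
      congr 1
      ext p
      simp only [mem_filter, mem_product]
      constructor
      · rintro ⟨⟨⟨h1, h2⟩, h3⟩, h4⟩
        exact ⟨⟨h1, h4⟩, h2, h3 ▸ h4⟩
      · rintro ⟨⟨h1, h4⟩, h2, h5⟩
        exact ⟨⟨⟨h1, h2⟩, h4.trans h5.symm⟩, h4⟩
    · intro p hp
      simp only [coe_filter, Set.mem_setOf_eq, mem_product] at hp
      exact mem_coe.2 (mem_image_of_mem _ hp.1.1)
  rw [h2]
  calc S.card ^ 2 = (∑ b ∈ S.image f, (S.filter fun a => f a = b).card) ^ 2 := by rw [← h1]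
    _ ≤ (S.image f).card * ∑ b ∈ S.image f, (S.filter fun a => f a = b).card ^ 2 :=
        sq_sum_le_card_mul_sum_sq

/-- arithmetic: from the classes on a rich line to a lower bound for the same-class pairs -/
theorem rich_arith {κ S D Q : ℕ} (hS : κ ≤ S + D) (hκ : 4 * (D + 1) ≤ κ)
    (h : S ^ 2 ≤ (D + 1) * (Q + S)) : κ ^ 2 ≤ 4 * (D + 1) * Q := by
  have h1 : 3 * κ ≤ 4 * S := by omega
  have h2 : 3 * (D + 1) ≤ S := by omega
  -- `(D+1) S ≤ S^2 / 3`
  have h3 : 3 * ((D + 1) * S) ≤ S * S := by nlinarith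
  have h4 : 2 * (S * S) ≤ 3 * ((D + 1) * Q) := by nlinarith
  have h5 : 9 * (κ * κ) ≤ 16 * (S * S) := by nlinarith
  nlinarith

end Vale.Agent.P054.T3.H109
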