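import Vale.Agent.P054.T3.H109.Ham
import Mathlib.Algebra.MvPolynomial.Funext
import Mathlib.RingTheory.Polynomial.Basic

set_option autoImplicit false
set_option linter.all false

/-!
# P054 / T3 / H109: polynomial partitioning of a finite set in `σ → ℝ`

`partition_exists`: for every `m` there are nonzero polynomials `f j`, `j < d m` (`d = card σ`),
with `∑ deg f j ≤ 2 d² 2^m`, such that each sign class contains at most `|P| / 2^(d m)` points
of the finite set `P` (given with a map `φ` into `σ → ℝ`).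
-/

namespace Vale.Agent.P054.T3.H109

open Finset MvPolynomial

variable {σ : Type*} [Fintype σ] [DecidableEq σ]

/-- the polynomial with given coefficients, degree at most `e` in every variable -/
noncomputable def toPoly (e : ℕ) (c : (σ → Fin (e + 1)) → ℝ) : MvPolynomial σ ℝ :=
  ∑ α : σ → Fin (e + 1), monomial (Finsupp.equivFunOnFinite.symm fun i => (α i : ℕ)) (c α)

theorem toPoly_totalDegree (e : ℕ) (c : (σ → Fin (e + 1)) → ℝ) :
    (toPoly e c).totalDegree ≤ Fintype.card σ * e := by
  refine totalDegree_finsetSum_le fun α _ => ?_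
  refine (totalDegree_monomial_le _ _).trans ?_
  rw [Finsupp.sum_fintype _ _ (fun _ => rfl)]
  calc ∑ i : σ, id ((Finsupp.equivFunOnFinite.symm fun i => ((α i : ℕ))) i)
      ≤ ∑ _i : σ, e := Finset.sum_le_sum fun i _ => by
        simp only [Finsupp.equivFunOnFinite_symm_apply_apply, id]
        exact Nat.lt_succ_iff.1 (α i).2
    _ = Fintype.card σ * e := by simp

theorem toPoly_coeff (e : ℕ) (c : (σ → Fin (e + 1)) → ℝ) (α : σ → Fin (e + 1)) :
    (toPoly e c).coeff (Finsupp.equivFunOnFinite.symm fun i => (α i : ℕ)) = c α := by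
  classical
  unfold toPoly
  rw [coeff_sum, Finset.sum_eq_single α]
  · rw [coeff_monomial, if_pos rfl]
  · intro β _ hβ
    rw [coeff_monomial, if_neg]
    intro h
    apply hβ
    funext i
    have := congrFun (Finsupp.equivFunOnFinite.symm.injective h) i
    exact Fin.ext this
  · intro h; exact absurd (mem_univ _) h

/-- evaluation as a linear functional of the coefficients -/
noncomputable def evL (e : ℕ) (y : σ → ℝ) : ((σ → Fin (e + 1)) → ℝ) →ₗ[ℝ] ℝ where
  toFun c := eval y (toPoly e c)
  map_add' a b := by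
    rw [← map_add]
    congr 1
    unfold toPoly
    rw [← Finset.sum_add_distrib]
    refine Finset.sum_congr rfl fun α _ => ?_
    rw [Pi.add_apply, map_add]
  map_smul' r a := by
    rw [RingHom.id_apply, smul_eq_mul]
    have : toPoly e (r • a) = C r * toPoly e a := by
      unfold toPoly
      rw [Finset.mul_sum]
      refine Finset.sum_congr rfl fun α _ => ?_
      rw [Pi.smul_apply, C_mul_monomial, smul_eq_mul]
    rw [this, map_mul, eval_C]

theorem evL_apply (e : ℕ) (y : σ → ℝ) (c : (σ → Fin (e + 1)) → ℝ) :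
    evL e y c = eval y (toPoly e c) := rfl

/-- polynomial ham sandwich: fewer than `(e+1)^d` finite sets are bisected by one polynomial of
degree at most `d e` -/
theorem exists_bisect {ι κ : Type*} [Fintype κ] {e : ℕ}
    (hm : Fintype.card κ < (e + 1) ^ Fintype.card σ) (A : κ → Finset ι) (φ : ι → σ → ℝ) :
    ∃ p : MvPolynomial σ ℝ, p ≠ 0 ∧ p.totalDegree ≤ Fintype.card σ * e ∧
      ∀ i, 2 * ((A i).filter fun x => 0 < eval (φ x) p).card ≤ (A i).card ∧
        2 * ((A i).filter fun x => eval (φ x) p < 0).card ≤ (A i).card := by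
  have hfr : Fintype.card κ < Module.finrank ℝ ((σ → Fin (e + 1)) → ℝ) := by
    simpa using hm
  obtain ⟨c, hc0, hc⟩ := ham_sandwich hfr (fun x : ι => evL e (φ x)) A
  refine ⟨toPoly e c, ?_, toPoly_totalDegree e c, fun i => ?_⟩
  · intro h
    apply hc0
    funext α
    rw [← toPoly_coeff e c α, h, coeff_zero, Pi.zero_apply]
  · exact hc i

/-- the sign class -/
def cell {J : ℕ} (f : Fin J → MvPolynomial σ ℝ) (s : Fin J → Bool) (y : σ → ℝ) : Prop :=
  ∀ j, if s j then 0 < eval y (f j) else eval y (f j) < 0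

omit [Fintype σ] [DecidableEq σ] in
theorem cell_unique {J : ℕ} {f : Fin J → MvPolynomial σ ℝ} {s s' : Fin J → Bool} {y : σ → ℝ}
    (h : cell f s y) (h' : cell f s' y) : s = s' := by
  funext j
  have h1 := h j
  have h2 := h' j
  rcases hs : s j with _ | _ <;> rcases hs' : s' j with _ | _ <;> rw [hs] at h1 <;> rw [hs'] at h2
  · simp at h1 h2; linarith
  · simp at h1 h2; linarith

omit [Fintype σ] [DecidableEq σ] in
theorem exists_cell {J : ℕ} {f : Fin J → MvPolynomial σ ℝ} {y : σ → ℝ}
    (h : ∀ j, eval y (f j) ≠ 0) : ∃ s, cell f s y := by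
  classical
  refine ⟨fun j => decide (0 < eval y (f j)), fun j => ?_⟩
  by_cases hj : 0 < eval y (f j)
  · simp [hj]
  · have : eval y (f j) < 0 := lt_of_le_of_ne (not_lt.1 hj) (h j)
    simp [hj, this]

omit [Fintype σ] [DecidableEq σ] in
theorem cell_ne_zero {J : ℕ} {f : Fin J → MvPolynomial σ ℝ} {s : Fin J → Bool} {y : σ → ℝ}
    (h : cell f s y) (j : Fin J) : eval y (f j) ≠ 0 := by
  have h1 := h j
  rcases hs : s j with _ | _ <;> rw [hs] at h1
  · simp at h1; exact h1.ne
  · simp at h1; exact h1.ne'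

/-- the exponent: `deg (f j) ≤ d * 2 ^ ex d j` -/
def ex (d j : ℕ) : ℕ := (j + d - 1) / d

theorem two_pow_lt {d : ℕ} (hd : 0 < d) (j : ℕ) : 2 ^ j < (2 ^ ex d j + 1) ^ d := by
  have h1 : j ≤ ex d j * d := by
    unfold ex
    have h2 := Nat.div_add_mod (j + d - 1) d
    have h3 := Nat.mod_lt (j + d - 1) hd
    have h4 : d * ((j + d - 1) / d) = (j + d - 1) / d * d := mul_comm _ _
    omega
  calc 2 ^ j ≤ 2 ^ (ex d j * d) := Nat.pow_le_pow_right (by norm_num) h1
    _ = (2 ^ ex d j) ^ d := pow_mul _ _ _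
    _ < (2 ^ ex d j + 1) ^ d := Nat.pow_lt_pow_left (Nat.lt_succ_self _) hd.ne'

open scoped Classical in
theorem partition_steps (hd : 0 < Fintype.card σ) {ι : Type*} (P : Finset ι) (φ : ι → σ → ℝ)
    (J : ℕ) :
    ∃ f : Fin J → MvPolynomial σ ℝ, (∀ j, f j ≠ 0) ∧
      (∀ j, (f j).totalDegree ≤ Fintype.card σ * 2 ^ ex (Fintype.card σ) j) ∧
      ∀ s : Fin J → Bool, 2 ^ J * (P.filter fun x => cell f s (φ x)).card ≤ P.card := by
  induction J with
  | zero =>
    refine ⟨fun j => j.elim0, fun j => j.elim0, fun j => j.elim0, fun s => ?_⟩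
    rw [pow_zero, one_mul]
    exact card_filter_le _ _
  | succ J ih =>
    obtain ⟨f, hf0, hfd, hf⟩ := ih
    obtain ⟨p, hp0, hpd, hp⟩ := exists_bisect (σ := σ) (κ := Fin J → Bool)
      (e := 2 ^ ex (Fintype.card σ) J) (by
        have := two_pow_lt hd J
        simpa using this)
      (fun s => P.filter fun x => cell f s (φ x)) φ
    refine ⟨Fin.snoc f p, ?_, ?_, ?_⟩
    · intro j
      refine Fin.lastCases ?_ (fun j => ?_) j
      · rw [Fin.snoc_last]; exact hp0
      · rw [Fin.snoc_castSucc]; exact hf0 j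
    · intro j
      refine Fin.lastCases ?_ (fun j => ?_) j
      · rw [Fin.snoc_last]; exact hpd
      · rw [Fin.snoc_castSucc]; exact hfd j
    · intro s
      have h1 := hp (fun j => s j.castSucc)
      have h2 := hf (fun j => s j.castSucc)
      have h3 : 2 * (P.filter fun x => cell (Fin.snoc f p) s (φ x)).card ≤
          (P.filter fun x => cell f (fun j => s j.castSucc) (φ x)).card := by
        rcases hs : s (Fin.last J) with _ | _
        · refine le_trans (Nat.mul_le_mul_left 2 (card_le_card ?_)) h1.2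
          intro x hx
          rw [mem_filter] at hx
          rw [mem_filter, mem_filter]
          have h4 := hx.2 (Fin.last J)
          rw [hs, Fin.snoc_last] at h4
          refine ⟨⟨hx.1, fun j => ?_⟩, by simpa using h4⟩
          have h5 := hx.2 j.castSucc
          rw [Fin.snoc_castSucc] at h5
          exact h5
        · refine le_trans (Nat.mul_le_mul_left 2 (card_le_card ?_)) h1.1
          intro x hx
          rw [mem_filter] at hx
          rw [mem_filter, mem_filter]
          have h4 := hx.2 (Fin.last J)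
          rw [hs, Fin.snoc_last] at h4
          refine ⟨⟨hx.1, fun j => ?_⟩, by simpa using h4⟩
          have h5 := hx.2 j.castSucc
          rw [Fin.snoc_castSucc] at h5
          exact h5
      calc 2 ^ (J + 1) * (P.filter fun x => cell (Fin.snoc f p) s (φ x)).card
          = 2 ^ J * (2 * (P.filter fun x => cell (Fin.snoc f p) s (φ x)).card) := by
            rw [pow_succ]; ring
        _ ≤ 2 ^ J * (P.filter fun x => cell f (fun j => s j.castSucc) (φ x)).card :=
            Nat.mul_le_mul_left _ h3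
        _ ≤ P.card := h2

theorem sum_ex_le {d : ℕ} (hd : 0 < d) (m : ℕ) :
    ∑ j : Fin (d * m), 2 ^ ex d j ≤ d * 2 ^ (m + 1) := by
  rw [Fin.sum_univ_eq_sum_range (fun j => 2 ^ ex d j) (d * m)]
  induction m with
  | zero => simp
  | succ m ih =>
    rw [Nat.mul_succ, Finset.sum_range_add]
    have h1 : ∑ i ∈ range d, 2 ^ ex d (d * m + i) ≤ ∑ _i ∈ range d, 2 ^ (m + 1) := by
      refine Finset.sum_le_sum fun i hi => ?_
      rw [mem_range] at hi
      refine Nat.pow_le_pow_right (by norm_num) ?_
      unfold ex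
      have h2 : d * m + i + d - 1 < (m + 2) * d := by
        have : (m + 2) * d = d * m + 2 * d := by ring
        omega
      have := (Nat.div_lt_iff_lt_mul hd).2 h2
      omega
    have h2 : ∑ _i ∈ range d, 2 ^ (m + 1) = d * 2 ^ (m + 1) := by simp
    calc ∑ x ∈ range (d * m), 2 ^ ex d x + ∑ x ∈ range d, 2 ^ ex d (d * m + x)
        ≤ d * 2 ^ (m + 1) + d * 2 ^ (m + 1) := Nat.add_le_add ih (h1.trans h2.le)
      _ = d * 2 ^ (m + 1 + 1) := by rw [pow_succ 2 (m + 1)]; ring

open scoped Classical in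
/-- polynomial partitioning -/
theorem partition_exists (hd : 0 < Fintype.card σ) {ι : Type*} (P : Finset ι) (φ : ι → σ → ℝ)
    (m : ℕ) :
    ∃ f : Fin (Fintype.card σ * m) → MvPolynomial σ ℝ, (∀ j, f j ≠ 0) ∧
      ∑ j, (f j).totalDegree ≤ 2 * Fintype.card σ ^ 2 * 2 ^ m ∧
      ∀ s, 2 ^ (Fintype.card σ * m) * (P.filter fun x => cell f s (φ x)).card ≤ P.card := by
  obtain ⟨f, h0, h1, h2⟩ := partition_steps hd P φ (Fintype.card σ * m)
  refine ⟨f, h0, ?_, h2⟩
  calc ∑ j, (f j).totalDegree
      ≤ ∑ j : Fin (Fintype.card σ * m), Fintype.card σ * 2 ^ ex (Fintype.card σ) j :=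
        Finset.sum_le_sum fun j _ => h1 j
    _ = Fintype.card σ * ∑ j : Fin (Fintype.card σ * m), 2 ^ ex (Fintype.card σ) j := by
        rw [Finset.mul_sum]
    _ ≤ Fintype.card σ * (Fintype.card σ * 2 ^ (m + 1)) :=
        Nat.mul_le_mul_left _ (sum_ex_le hd m)
    _ = 2 * Fintype.card σ ^ 2 * 2 ^ m := by rw [pow_succ]; ring

end Vale.Agent.P054.T3.H109
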