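import Vale.Agent.P054.T3.H109.LineCells
import Vale.Agent.P054.T2.H269.S1

set_option autoImplicit false
set_option linter.all false

/-!
# P054 / T3 / H109: few pairs lie on rich lines (no logarithm)

`card_rich_pairs`: if every line contains at most `L` points of `P`, then at most
`36 |P|² / 2^m + 8 · 2^m · L²` pairs lie on lines with at least `4 (8 · 2^m + 1)` points of `P`.
-/

namespace Vale.Agent.P054.T3.H109

open Finset MvPolynomial Vale.Agent.P054.T2.H686 Vale.Agent.P054.T2.H269

variable {n : ℕ}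

/-- cross product in the plane -/
def cr (x y : Fin 2 → ℝ) : ℝ := x 0 * y 1 - x 1 * y 0

/-- a generic linear map to the plane keeps non-collinear triples of `P` non-collinear -/
theorem exists_generic_plane (P : Finset (E n)) :
    ∃ φ : E n →ₗ[ℝ] (Fin 2 → ℝ), (∀ x ∈ P, ∀ y ∈ P, x ≠ y → φ (y - x) 0 ≠ 0) ∧
      ∀ x ∈ P, ∀ y ∈ P, ∀ z ∈ P, x ≠ y → cr (φ (z - x)) (φ (y - x)) = 0 → onLine x y z := by
  classical
  obtain ⟨l1, hl1⟩ := Module.exists_dual_forall_apply_ne_zero (K := ℝ)
    (fun p : P.offDiag => p.1.2 - p.1.1) (fun p => by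
      have := (mem_offDiag.1 p.2).2.2
      exact sub_ne_zero.2 this.symm)
  have hl1' : ∀ x ∈ P, ∀ y ∈ P, x ≠ y → l1 (y - x) ≠ 0 := by
    intro x hx y hy hxy
    exact hl1 ⟨(x, y), mem_offDiag.2 ⟨hx, hy, hxy⟩⟩
  let Q : Finset (E n × E n × E n) := (P ×ˢ P ×ˢ P).filter fun q =>
    q.1 ≠ q.2.1 ∧ ¬ onLine q.1 q.2.1 q.2.2
  obtain ⟨l2, hl2⟩ := Module.exists_dual_forall_apply_ne_zero (K := ℝ)
    (fun q : Q => l1 (q.1.2.1 - q.1.1) • (q.1.2.2 - q.1.1) -
      l1 (q.1.2.2 - q.1.1) • (q.1.2.1 - q.1.1)) (fun q => by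
      have hq := (mem_filter.1 q.2)
      have hq1 := mem_product.1 hq.1
      have hq2 := mem_product.1 hq1.2
      have h1 := hl1' _ hq1.1 _ hq2.1 hq.2.1
      intro h0
      apply hq.2.2
      refine ⟨l1 (q.1.2.2 - q.1.1) / l1 (q.1.2.1 - q.1.1), ?_⟩
      have h2 : q.1.2.2 - q.1.1 =
          (l1 (q.1.2.2 - q.1.1) / l1 (q.1.2.1 - q.1.1)) • (q.1.2.1 - q.1.1) := by
        have h3 := sub_eq_zero.1 h0
        rw [div_eq_inv_mul, mul_smul, ← h3, smul_smul, inv_mul_cancel₀ h1, one_smul]
      rw [← h2]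
      abel)
  refine ⟨LinearMap.pi ![l1, l2], ?_, ?_⟩
  · intro x hx y hy hxy
    simpa using hl1' x hx y hy hxy
  · intro x hx y hy z hz hxy hcr
    by_contra hno
    have hq : (x, y, z) ∈ Q := by
      refine mem_filter.2 ⟨?_, hxy, hno⟩
      rw [mem_product, mem_product]
      exact ⟨hx, hy, hz⟩
    have h1 := hl2 ⟨(x, y, z), hq⟩
    apply h1
    simp only [map_sub, map_smul, smul_eq_mul]
    unfold cr at hcr
    simp only [LinearMap.pi_apply, Matrix.cons_val_zero, Matrix.cons_val_one, map_sub] at hcr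
    linarith

/-- restriction of a polynomial to the line `u + t d` -/
noncomputable def resL {σ : Type*} (f : MvPolynomial σ ℝ) (u d : σ → ℝ) : Polynomial ℝ :=
  aeval (fun i => Polynomial.C (u i) + Polynomial.C (d i) * Polynomial.X) f

theorem resL_eval {σ : Type*} (f : MvPolynomial σ ℝ) (u d : σ → ℝ) (t : ℝ) :
    (resL f u d).eval t = eval (u + t • d) f := by
  unfold resL
  rw [← Polynomial.coe_evalRingHom]
  have h : (Polynomial.evalRingHom t) (aeval (fun i => Polynomial.C (u i) +
      Polynomial.C (d i) * Polynomial.X) f) =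
      ((Polynomial.evalRingHom t).comp (aeval (R := ℝ) (fun i => Polynomial.C (u i) +
      Polynomial.C (d i) * Polynomial.X)).toRingHom) f := rfl
  rw [h]
  congr 1
  refine MvPolynomial.ringHom_ext (fun r => ?_) (fun i => ?_)
  · simp
  · simp
    ring

theorem resL_natDegree {σ : Type*} (f : MvPolynomial σ ℝ) (u d : σ → ℝ) :
    (resL f u d).natDegree ≤ f.totalDegree := by
  have := MvPolynomial.aeval_natDegree_le (m := f.totalDegree) (n := 1) f le_rfl
    (fun i => Polynomial.C (u i) + Polynomial.C (d i) * Polynomial.X) (fun i => by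
      refine (Polynomial.natDegree_add_le _ _).trans (max_le (by simp) ?_)
      refine (Polynomial.natDegree_C_mul_le _ _).trans ?_
      exact Polynomial.natDegree_X_le)
  rw [mul_one] at this
  exact this

open scoped Classical in
/-- the points of `P` on the line through `p.1` and `p.2` -/
noncomputable def ln (P : Finset (E n)) (p : E n × E n) : Finset (E n) :=
  P.filter fun z => onLine p.1 p.2 z

theorem mem_ln {P : Finset (E n)} {p : E n × E n} {z : E n} :
    z ∈ ln P p ↔ z ∈ P ∧ onLine p.1 p.2 z := by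
  classical
  unfold ln
  rw [mem_filter]

theorem card_ln (P : Finset (E n)) (p : E n × E n) : (ln P p).card = lineCard P p.1 p.2 := by
  classical
  rw [lineCard_eq]; rfl

theorem onLine_iff {x y a b z : E n} (ha : onLine x y a) (hb : onLine x y b) (hab : a ≠ b) :
    onLine a b z ↔ onLine x y z := by
  obtain ⟨α, rfl⟩ := ha
  obtain ⟨β, rfl⟩ := hb
  have hne : β - α ≠ 0 := by
    intro h
    apply hab
    rw [show β = α by linarith]
  constructor
  · rintro ⟨c, rfl⟩
    exact ⟨α + c * (β - α), by module⟩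
  · rintro ⟨c, rfl⟩
    refine ⟨(c - α) / (β - α), ?_⟩
    have h1 : (c - α) / (β - α) * (β - α) = c - α := div_mul_cancel₀ _ hne
    have h2 : x + β • (y - x) - (x + α • (y - x)) = (β - α) • (y - x) := by module
    rw [h2, smul_smul, h1]
    module

theorem ln_eq {P : Finset (E n)} {p q : E n × E n} (h1 : q.1 ∈ ln P p) (h2 : q.2 ∈ ln P p)
    (hne : q.1 ≠ q.2) : ln P q = ln P p := by
  ext z
  rw [mem_ln, mem_ln, onLine_iff (mem_ln.1 h1).2 (mem_ln.1 h2).2 hne]

theorem fst_mem_ln {P : Finset (E n)} {p : E n × E n} (h : p ∈ P.offDiag) : p.1 ∈ ln P p :=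
  mem_ln.2 ⟨(mem_offDiag.1 h).1, onLine_left _ _⟩

theorem snd_mem_ln {P : Finset (E n)} {p : E n × E n} (h : p ∈ P.offDiag) : p.2 ∈ ln P p :=
  mem_ln.2 ⟨(mem_offDiag.1 h).2.1, onLine_right _ _⟩

/-- two points in the same sign class -/
def sameCell {σ : Type*} {J : ℕ} (f : Fin J → MvPolynomial σ ℝ) (y y' : σ → ℝ) : Prop :=
  ∃ s, cell f s y ∧ cell f s y'

open scoped Classical in
/-- the pairs of distinct points of `P` in the same sign class -/
noncomputable def samePairs {σ : Type*} {J : ℕ} (f : Fin J → MvPolynomial σ ℝ)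
    {ι : Type*} (φ : ι → σ → ℝ) (P : Finset ι) : Finset (ι × ι) :=
  P.offDiag.filter fun p => sameCell f (φ p.1) (φ p.2)

open scoped Classical in
theorem card_samePairs_le {σ : Type*} {J : ℕ} (f : Fin J → MvPolynomial σ ℝ)
    {ι : Type*} (φ : ι → σ → ℝ) (P : Finset ι)
    (hf : ∀ s, 2 ^ J * (P.filter fun x => cell f s (φ x)).card ≤ P.card) :
    2 ^ J * (samePairs f φ P).card ≤ P.card ^ 2 := by
  have h1 : (samePairs f φ P).card =
      ∑ a ∈ P, ((samePairs f φ P).filter fun p => p.1 = a).card := by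
    refine Finset.card_eq_sum_card_fiberwise ?_
    intro p hp
    exact (mem_offDiag.1 (mem_filter.1 hp).1).1
  rw [h1, Finset.mul_sum]
  have h2 : ∀ a ∈ P, 2 ^ J * ((samePairs f φ P).filter fun p => p.1 = a).card ≤ P.card := by
    intro a ha
    by_cases hs : ∃ s, cell f s (φ a)
    · obtain ⟨s, hs⟩ := hs
      refine le_trans (Nat.mul_le_mul_left _ ?_) (hf s)
      refine Finset.card_le_card_of_injOn (fun p => p.2) ?_ ?_
      · intro p hp
        simp only [samePairs, coe_filter, Set.mem_setOf_eq, mem_filter, mem_offDiag] at hp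
        obtain ⟨⟨⟨h3, h4, h5⟩, s', h6, h7⟩, rfl⟩ := hp
        rw [coe_filter]
        refine ⟨h4, ?_⟩
        rw [cell_unique hs h6]
        exact h7
      · intro p hp q hq hpq
        simp only [coe_filter, Set.mem_setOf_eq] at hp hq
        exact Prod.ext (hp.2.trans hq.2.symm) hpq
    · have : ((samePairs f φ P).filter fun p => p.1 = a) = ∅ := by
        ext p
        simp only [samePairs, mem_filter, notMem_empty, iff_false]
        rintro ⟨⟨_, s, h6, _⟩, rfl⟩
        exact hs ⟨s, h6⟩
      rw [this]; simp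
  calc ∑ a ∈ P, 2 ^ J * ((samePairs f φ P).filter fun p => p.1 = a).card
      ≤ ∑ _a ∈ P, P.card := Finset.sum_le_sum h2
    _ = P.card ^ 2 := by simp [sq]

open scoped Classical in
/-- on a rich line a positive fraction of the pairs is in the same class -/
theorem sq_ln_le (P : Finset (E n)) {σ : Type*} {J : ℕ} (f : Fin J → MvPolynomial σ ℝ)
    (φ : E n →ₗ[ℝ] (σ → ℝ)) {p : E n × E n} (hp : p ∈ P.offDiag) {D : ℕ}
    (hD : ∑ j, (f j).totalDegree ≤ D)
    (hres : ∀ j, resL (f j) (φ p.1) (φ (p.2 - p.1)) ≠ 0)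
    (hκ : 4 * (D + 1) ≤ (ln P p).card) :
    (ln P p).card ^ 2 ≤ 4 * (D + 1) *
      ((samePairs f φ P).filter fun q => ln P q = ln P p).card := by
  classical
  set F : Fin J → Polynomial ℝ := fun j => resL (f j) (φ p.1) (φ (p.2 - p.1)) with hF
  set L := ln P p with hL
  have hFd : ∑ j, (F j).natDegree ≤ D :=
    (Finset.sum_le_sum fun j _ => resL_natDegree (f j) _ _).trans hD
  have hτ : ∀ z, ∃ a : ℝ, z ∈ L → z = p.1 + a • (p.2 - p.1) := by
    intro z
    by_cases hz : z ∈ L
    · obtain ⟨a, ha⟩ := (mem_ln.1 hz).2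
      exact ⟨a, fun _ => ha⟩
    · exact ⟨0, fun h => absurd h hz⟩
  choose τ hτ using hτ
  have hev : ∀ z ∈ L, ∀ j, (F j).eval (τ z) = eval (φ z) (f j) := by
    intro z hz j
    rw [hF]
    simp only
    rw [resL_eval]
    conv_rhs => rw [hτ z hz, map_add, map_smul]
  have hinj : ∀ a ∈ L, ∀ b ∈ L, τ a = τ b → a = b := by
    intro a ha b hb hab
    rw [hτ a ha, hτ b hb, hab]
  set S := L.filter (fun z => ∀ j, eval (φ z) (f j) ≠ 0) with hS
  -- few points on the zero set
  have h1 : L.card ≤ S.card + D := by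
    have h2 : (L.filter fun z => ¬ ∀ j, eval (φ z) (f j) ≠ 0).card ≤ D := by
      have h3 : (L.filter fun z => ¬ ∀ j, eval (φ z) (f j) ≠ 0).card ≤
          ((∏ j, F j).roots.toFinset).card := by
        refine Finset.card_le_card_of_injOn τ ?_ ?_
        · intro z hz
          rw [coe_filter, Set.mem_setOf_eq] at hz
          obtain ⟨hz1, hz2⟩ := hz
          push Not at hz2
          obtain ⟨j, hj⟩ := hz2
          rw [mem_coe, Multiset.mem_toFinset, Polynomial.mem_roots
            (Finset.prod_ne_zero_iff.2 fun j _ => hres j), Polynomial.IsRoot,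
            Polynomial.eval_prod]
          refine Finset.prod_eq_zero (mem_univ j) ?_
          rw [hev z hz1 j, hj]
        · intro a ha b hb hab
          rw [coe_filter, Set.mem_setOf_eq] at ha hb
          exact hinj a ha.1 b hb.1 hab
      calc _ ≤ _ := h3
        _ ≤ (∏ j, F j).roots.card := Multiset.toFinset_card_le _
        _ ≤ (∏ j, F j).natDegree := Polynomial.card_roots' _
        _ ≤ ∑ j, (F j).natDegree := Polynomial.natDegree_prod_le _ _
        _ ≤ D := hFd
    have h3 : L ⊆ S ∪ (L.filter fun z => ¬ ∀ j, eval (φ z) (f j) ≠ 0) := by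
      intro z hz
      rw [mem_union, mem_filter, mem_filter]
      by_cases h : ∀ j, eval (φ z) (f j) ≠ 0
      · exact Or.inl ⟨hz, h⟩
      · exact Or.inr ⟨hz, h⟩
    have h4 := (card_le_card h3).trans (card_union_le _ _)
    omega
  -- Cauchy–Schwarz
  have h2 : S.card ^ 2 ≤ (D + 1) *
      (((samePairs f φ P).filter fun q => ln P q = L).card + S.card) := by
    refine (sq_card_le_image_mul S (fun z => sv F (τ z))).trans ?_
    refine Nat.mul_le_mul ?_ ?_
    · have h3 := card_image_sv F hres (S.image τ) (by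
        intro t ht j
        obtain ⟨z, hz, rfl⟩ := mem_image.1 ht
        rw [hev z (mem_filter.1 hz).1 j]
        exact (mem_filter.1 hz).2 j)
      rw [Finset.image_image] at h3
      exact h3.trans (Nat.add_le_add_right hFd 1)
    · have h3 : ((S ×ˢ S).filter fun q => sv F (τ q.1) = sv F (τ q.2)) ⊆
          ((samePairs f φ P).filter fun q => ln P q = L) ∪ S.diag := by
        intro q hq
        rw [mem_filter, mem_product] at hq
        obtain ⟨⟨hq1, hq2⟩, hq3⟩ := hq
        rw [mem_union]
        by_cases hne : q.1 = q.2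
        · right; exact mem_diag.2 ⟨hq1, hne⟩
        · left
          have hL1 := (mem_filter.1 hq1).1
          have hL2 := (mem_filter.1 hq2).1
          rw [mem_filter, samePairs, mem_filter, mem_offDiag]
          refine ⟨⟨⟨(mem_ln.1 hL1).1, (mem_ln.1 hL2).1, hne⟩, ?_⟩, ln_eq hL1 hL2 hne⟩
          obtain ⟨s, hs⟩ := exists_cell (mem_filter.1 hq1).2
          refine ⟨s, hs, fun j => ?_⟩
          have h5 := congrFun hq3 j
          unfold sv at h5
          rw [hev _ hL1 j, hev _ hL2 j, decide_eq_decide] at h5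
          have h6 := hs j
          have h7 := (mem_filter.1 hq2).2 j
          rcases hsj : s j with _ | _ <;> rw [hsj] at h6
          · simp at h6
            simp only [Bool.false_eq_true, if_false]
            have : ¬ 0 < eval (φ q.2) (f j) := fun h => by
              have := h5.2 h
              linarith
            exact lt_of_le_of_ne (not_lt.1 this) h7
          · simp at h6
            simp only [if_true]
            exact h5.1 h6
      refine (card_le_card h3).trans ((card_union_le _ _).trans ?_)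
      rw [diag_card]
  exact rich_arith h1 hκ h2

theorem sum_fiber_le {α β : Type*} [DecidableEq β] (A : Finset α) (g : α → β) (T : Finset β) :
    ∑ b ∈ T, (A.filter fun a => g a = b).card ≤ A.card := by
  classical
  rw [← Finset.card_biUnion]
  · refine card_le_card ?_
    intro a ha
    obtain ⟨b, _, hb⟩ := mem_biUnion.1 ha
    exact (mem_filter.1 hb).1
  · intro b _ b' _ hne
    rw [Function.onFun, Finset.disjoint_left]
    intro a ha ha'
    exact hne ((mem_filter.1 ha).2.symm.trans (mem_filter.1 ha').2)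

open scoped Classical in
/-- pairs on rich lines outside the zero sets -/
theorem card_rich_out (P : Finset (E n)) {σ : Type*} {J : ℕ} (f : Fin J → MvPolynomial σ ℝ)
    (φ : E n →ₗ[ℝ] (σ → ℝ)) {D : ℕ} (hD : ∑ j, (f j).totalDegree ≤ D) :
    (P.offDiag.filter fun p => 4 * (D + 1) ≤ lineCard P p.1 p.2 ∧
      ∀ j, resL (f j) (φ p.1) (φ (p.2 - p.1)) ≠ 0).card ≤
      4 * (D + 1) * (samePairs f φ P).card := by
  classical
  set R := (P.offDiag.filter fun p => 4 * (D + 1) ≤ lineCard P p.1 p.2 ∧
      ∀ j, resL (f j) (φ p.1) (φ (p.2 - p.1)) ≠ 0) with hR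
  have h1 : R.card = ∑ L ∈ R.image (ln P), (R.filter fun p => ln P p = L).card :=
    Finset.card_eq_sum_card_image _ _
  have h2 : ∀ L ∈ R.image (ln P), (R.filter fun p => ln P p = L).card ≤
      4 * (D + 1) * ((samePairs f φ P).filter fun q => ln P q = L).card := by
    intro L hL
    obtain ⟨p, hp, rfl⟩ := mem_image.1 hL
    rw [hR, mem_filter] at hp
    obtain ⟨hp1, hp2, hp3⟩ := hp
    have h3 : (R.filter fun q => ln P q = ln P p).card ≤ (ln P p).card ^ 2 := by
      rw [sq, ← card_product]
      refine card_le_card ?_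
      intro q hq
      rw [mem_filter] at hq
      have hq1 := (mem_filter.1 hq.1).1
      rw [mem_product]
      have h4 := fst_mem_ln hq1
      have h5 := snd_mem_ln hq1
      rw [hq.2] at h4 h5
      exact ⟨h4, h5⟩
    exact h3.trans (sq_ln_le P f φ hp1 hD hp3 (by rw [card_ln]; exact hp2))
  rw [h1]
  calc _ ≤ ∑ L ∈ R.image (ln P),
        4 * (D + 1) * ((samePairs f φ P).filter fun q => ln P q = L).card :=
        Finset.sum_le_sum h2
    _ = 4 * (D + 1) * ∑ L ∈ R.image (ln P),
        ((samePairs f φ P).filter fun q => ln P q = L).card := by rw [Finset.mul_sum]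
    _ ≤ 4 * (D + 1) * (samePairs f φ P).card :=
        Nat.mul_le_mul_left _ (sum_fiber_le _ _ _)

end Vale.Agent.P054.T3.H109
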