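import Vale.Agent.P054.T3.H109.GLines

set_option autoImplicit false
set_option linter.all false

/-!
# P054 / T3 / H109: the Szemerédi–Trotter theorem (sharp form) in a real vector space

`st_lines`: the number `N` of lines with at least `κ` points of `A` satisfies
`N κ³ ≤ 46656 n² + 2 n κ²`.
`st_pairs`: at most `373248 n² / k + 16 n L` pairs of `A` lie on lines with at least `k` points,
if every line has at most `L` points of `A`.
-/

namespace Vale.Agent.P054.T3.H109.Gen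

open Finset MvPolynomial Vale.Agent.P054.T3.H109

variable {V : Type*} [AddCommGroup V] [Module ℝ V]

open scoped Classical in
/-- the lines with at least `κ` points, as sets of points -/
noncomputable def rl (A : Finset V) (κ : ℕ) : Finset (Finset V) :=
  (A.offDiag.filter fun p => κ ≤ lineC A p.1 p.2).image (ln A)

theorem mem_rl {A : Finset V} {κ : ℕ} {L : Finset V} :
    L ∈ rl A κ ↔ ∃ p ∈ A.offDiag, κ ≤ lineC A p.1 p.2 ∧ ln A p = L := by
  classical
  unfold rl
  rw [mem_image]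
  constructor
  · rintro ⟨p, hp, h⟩
    rw [mem_filter] at hp
    exact ⟨p, hp.1, hp.2, h⟩
  · rintro ⟨p, hp, h1, h2⟩
    exact ⟨p, mem_filter.2 ⟨hp, h1⟩, h2⟩

theorem card_rl_le (A : Finset V) (κ : ℕ) : (rl A κ).card ≤ A.card ^ 2 := by
  classical
  unfold rl
  refine card_image_le.trans ((card_filter_le _ _).trans ?_)
  rw [offDiag_card, sq]
  exact Nat.sub_le _ _

theorem rl_subset {A L : Finset V} {κ : ℕ} (h : L ∈ rl A κ) : L ⊆ A := by
  obtain ⟨p, -, -, rfl⟩ := mem_rl.1 h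
  intro z hz
  exact (mem_ln.1 hz).1

theorem rl_card {A L : Finset V} {κ : ℕ} (h : L ∈ rl A κ) : κ ≤ L.card := by
  obtain ⟨p, -, h1, rfl⟩ := mem_rl.1 h
  rwa [card_ln]

/-- two different lines meet in at most one point -/
theorem rl_inter [DecidableEq V] {A L L' : Finset V} {κ : ℕ} (h : L ∈ rl A κ) (h' : L' ∈ rl A κ)
    (hne : L ≠ L') : (L ∩ L').card ≤ 1 := by
  obtain ⟨p, -, -, rfl⟩ := mem_rl.1 h
  obtain ⟨p', -, -, rfl⟩ := mem_rl.1 h'
  rw [card_le_one]
  intro a ha b hb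
  rw [mem_inter] at ha hb
  by_contra hab
  apply hne
  have h1 := ln_eq (q := (a, b)) ha.1 hb.1 hab
  have h2 := ln_eq (q := (a, b)) ha.2 hb.2 hab
  rw [← h1, ← h2]

/-- the core: `κ ≥ 36 · 2^m` -/
theorem st_core (A : Finset V) (m κ : ℕ) (hκ : 36 * 2 ^ m ≤ κ) :
    2 ^ m * (κ ^ 2 * (rl A κ).card) ≤ 72 * A.card ^ 2 + 2 ^ m * (κ ^ 2 * (8 * 2 ^ m)) := by
  classical
  obtain ⟨φ, h1, h2⟩ := exists_generic_plane A
  obtain ⟨f, hf0, hfd, hf⟩ := partition_exists (σ := Fin 2) (by simp) A φ m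
  have hD : ∑ j, (f j).totalDegree ≤ 8 * 2 ^ m := by
    refine hfd.trans (le_of_eq ?_)
    have : Fintype.card (Fin 2) = 2 := Fintype.card_fin 2
    simp only [this]
    norm_num
  set D := 8 * 2 ^ m with hDd
  have hm1 : 1 ≤ 2 ^ m := Nat.one_le_two_pow
  set T1 := (A.offDiag.filter fun p => κ ≤ lineC A p.1 p.2 ∧
      ∀ j, resL (f j) (φ p.1) (φ (p.2 - p.1)) ≠ 0).image (ln A) with hT1
  set R2 := A.offDiag.filter fun p => ¬ ∀ j, resL (f j) (φ p.1) (φ (p.2 - p.1)) ≠ 0 with hR2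
  have hsame : 4 ^ m * (samePairs f φ A).card ≤ A.card ^ 2 := by
    have := card_samePairs_le f φ A hf
    have h4 : (2:ℕ) ^ (Fintype.card (Fin 2) * m) = 4 ^ m := by
      rw [Fintype.card_fin, pow_mul]
      norm_num
    rwa [h4] at this
  -- the lines outside the zero sets
  have hT1c : κ ^ 2 * T1.card ≤ 4 * (D + 1) * (samePairs f φ A).card := by
    have h3 : ∀ L ∈ T1, κ ^ 2 ≤ 4 * (D + 1) *
        ((samePairs f φ A).filter fun q => ln A q = L).card := by
      intro L hL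
      obtain ⟨p, hp, rfl⟩ := mem_image.1 hL
      rw [mem_filter] at hp
      have h4 := sq_ln_le A f φ hp.1 hD hp.2.2 (by rw [card_ln]; omega)
      refine le_trans (Nat.pow_le_pow_left ?_ 2) h4
      rw [card_ln]; exact hp.2.1
    calc κ ^ 2 * T1.card = ∑ _L ∈ T1, κ ^ 2 := by rw [Finset.sum_const, smul_eq_mul, mul_comm]
      _ ≤ ∑ L ∈ T1, 4 * (D + 1) * ((samePairs f φ A).filter fun q => ln A q = L).card :=
          Finset.sum_le_sum h3
      _ = 4 * (D + 1) * ∑ L ∈ T1, ((samePairs f φ A).filter fun q => ln A q = L).card := by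
          rw [Finset.mul_sum]
      _ ≤ 4 * (D + 1) * (samePairs f φ A).card := Nat.mul_le_mul_left _ (sum_fiber_le _ _ _)
  -- lines in the zero set
  set g : MvPolynomial (Fin 2) ℝ := ∏ j, f j with hg
  have hg0 : g ≠ 0 := Finset.prod_ne_zero_iff.2 fun j _ => hf0 j
  have hgd : g.totalDegree ≤ D := (totalDegree_finsetProd _ _).trans hD
  have hT2 : (R2.image (ln A)).card ≤ D := by
    refine (card_zero_lines A φ h1 h2 g hg0 _ ?_).trans hgd
    intro L' hL'
    obtain ⟨p, hp, rfl⟩ := mem_image.1 hL'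
    rw [hR2, mem_filter] at hp
    obtain ⟨hp1, hp2⟩ := hp
    refine ⟨p, hp1, rfl, ?_⟩
    push Not at hp2
    obtain ⟨j, hj⟩ := hp2
    have : resL g (φ p.1) (φ (p.2 - p.1)) = ∏ j, resL (f j) (φ p.1) (φ (p.2 - p.1)) := by
      unfold resL
      rw [hg, map_prod]
    rw [this]
    exact Finset.prod_eq_zero (mem_univ j) hj
  have hsub : rl A κ ⊆ T1 ∪ R2.image (ln A) := by
    intro L hL
    obtain ⟨p, hp, h3, rfl⟩ := mem_rl.1 hL
    rw [mem_union]
    by_cases h : ∀ j, resL (f j) (φ p.1) (φ (p.2 - p.1)) ≠ 0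
    · exact Or.inl (mem_image_of_mem _ (mem_filter.2 ⟨hp, h3, h⟩))
    · exact Or.inr (mem_image_of_mem _ (mem_filter.2 ⟨hp, h⟩))
  have hfin : (rl A κ).card ≤ T1.card + D :=
    (card_le_card hsub).trans ((card_union_le _ _).trans (Nat.add_le_add_left hT2 _))
  -- conclusion
  have h5 : 2 ^ m * (κ ^ 2 * T1.card) ≤ 72 * A.card ^ 2 := by
    have h6 : 4 * (D + 1) ≤ 36 * 2 ^ m := by omega
    have h7 : 2 ^ m * (κ ^ 2 * T1.card) ≤ 2 ^ m * (36 * 2 ^ m * (samePairs f φ A).card) :=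
      Nat.mul_le_mul_left _ (hT1c.trans (Nat.mul_le_mul_right _ h6))
    have h8 : 2 ^ m * (36 * 2 ^ m * (samePairs f φ A).card) =
        36 * (4 ^ m * (samePairs f φ A).card) := by
      have : (4:ℕ) ^ m = 2 ^ m * 2 ^ m := by rw [← mul_pow]; norm_num
      rw [this]; ring
    have h9 : 36 * (4 ^ m * (samePairs f φ A).card) ≤ 36 * A.card ^ 2 :=
      Nat.mul_le_mul_left _ hsame
    omega
  calc 2 ^ m * (κ ^ 2 * (rl A κ).card) ≤ 2 ^ m * (κ ^ 2 * (T1.card + D)) :=
        Nat.mul_le_mul_left _ (Nat.mul_le_mul_left _ hfin)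
    _ = 2 ^ m * (κ ^ 2 * T1.card) + 2 ^ m * (κ ^ 2 * D) := by ring
    _ ≤ 72 * A.card ^ 2 + 2 ^ m * (κ ^ 2 * D) := Nat.add_le_add_right h5 _

/-- the trivial bound: `κ² ≤ 2 n` or `N κ ≤ 2 n` -/
theorem st_trivial (A : Finset V) (κ : ℕ) :
    κ ^ 2 ≤ 2 * A.card ∨ (rl A κ).card * κ ≤ 2 * A.card := by
  classical
  set T := rl A κ with hT
  set j := T.card with hj
  set S := ∑ L ∈ T, L.card with hS
  have hSj : j * κ ≤ S := by
    calc j * κ = ∑ _L ∈ T, κ := by rw [Finset.sum_const, smul_eq_mul]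
      _ ≤ S := Finset.sum_le_sum fun L hL => rl_card hL
  -- double counting
  have h1 : S = ∑ x ∈ A, (T.filter fun L => x ∈ L).card := by
    rw [hS]
    have h2 : ∀ L ∈ T, L.card = ∑ x ∈ A, if x ∈ L then 1 else 0 := by
      intro L hL
      rw [← Finset.card_filter]
      congr 1
      ext x
      rw [mem_filter]
      exact ⟨fun h => ⟨rl_subset hL h, h⟩, fun h => h.2⟩
    rw [Finset.sum_congr rfl h2, Finset.sum_comm]
    refine Finset.sum_congr rfl fun x _ => ?_
    rw [Finset.card_filter]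
  have h2 : ∑ x ∈ A, (T.filter fun L => x ∈ L).card ^ 2 ≤ S + j ^ 2 := by
    have h3 : ∀ x ∈ A, (T.filter fun L => x ∈ L).card ^ 2 =
        ∑ p ∈ T ×ˢ T, if x ∈ p.1 ∩ p.2 then 1 else 0 := by
      intro x _
      rw [sq, ← card_product, ← Finset.card_filter]
      congr 1
      ext p
      simp only [mem_product, mem_filter, mem_inter]
      tauto
    rw [Finset.sum_congr rfl h3, Finset.sum_comm]
    have h4 : ∀ p ∈ T ×ˢ T, (∑ x ∈ A, if x ∈ p.1 ∩ p.2 then 1 else 0) ≤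
        (if p.1 = p.2 then p.1.card else 0) + 1 := by
      intro p hp
      rw [mem_product] at hp
      rw [← Finset.card_filter]
      have h5 : (A.filter fun x => x ∈ p.1 ∩ p.2) ⊆ p.1 ∩ p.2 := by
        intro x hx
        exact (mem_filter.1 hx).2
      refine (card_le_card h5).trans ?_
      by_cases h6 : p.1 = p.2
      · rw [if_pos h6]
        refine (card_le_card (Finset.inter_subset_left)).trans ?_
        omega
      · rw [if_neg h6, zero_add]
        exact rl_inter hp.1 hp.2 h6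
    refine (Finset.sum_le_sum h4).trans ?_
    rw [Finset.sum_add_distrib]
    refine Nat.add_le_add ?_ ?_
    · rw [Finset.sum_product]
      refine Finset.sum_le_sum fun L hL => ?_
      rw [Finset.sum_ite_eq]
      rw [if_pos hL]
    · simp [sq, hj]
  have h3 : S ^ 2 ≤ A.card * (S + j ^ 2) := by
    calc S ^ 2 = (∑ x ∈ A, (T.filter fun L => x ∈ L).card) ^ 2 := by rw [← h1]
      _ ≤ A.card * ∑ x ∈ A, (T.filter fun L => x ∈ L).card ^ 2 := sq_sum_le_card_mul_sum_sq
      _ ≤ A.card * (S + j ^ 2) := Nat.mul_le_mul_left _ h2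
  rcases Nat.eq_zero_or_pos j with hj0 | hj0
  · right
    rw [hj0, zero_mul]
    exact Nat.zero_le _
  rcases le_total S (j ^ 2) with h4 | h4
  · left
    · have h6 : (j * κ) ^ 2 ≤ A.card * (j ^ 2 + j ^ 2) :=
        (Nat.pow_le_pow_left hSj 2).trans (h3.trans (Nat.mul_le_mul_left _
          (Nat.add_le_add_right h4 _)))
      have h7 : j ^ 2 * κ ^ 2 ≤ j ^ 2 * (2 * A.card) := by
        calc j ^ 2 * κ ^ 2 = (j * κ) ^ 2 := by ring
          _ ≤ _ := h6
          _ = j ^ 2 * (2 * A.card) := by ring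
      exact Nat.le_of_mul_le_mul_left h7 (by positivity)
  · right
    rcases Nat.eq_zero_or_pos S with h5 | h5
    · have : j * κ = 0 := by omega
      omega
    · have h6 : S * S ≤ (2 * A.card) * S := by
        calc S * S = S ^ 2 := (sq S).symm
          _ ≤ A.card * (S + j ^ 2) := h3
          _ ≤ A.card * (S + S) := Nat.mul_le_mul_left _ (Nat.add_le_add_left h4 _)
          _ = (2 * A.card) * S := by ring
      have h7 : S ≤ 2 * A.card := Nat.le_of_mul_le_mul_right h6 h5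
      exact hSj.trans h7

/-- **Szemerédi–Trotter**: the number `N` of lines with at least `κ` points of `A` satisfies
`N κ³ ≤ 46656 n² + 2 n κ²` -/
theorem st_lines (A : Finset V) (κ : ℕ) :
    (rl A κ).card * κ ^ 3 ≤ 46656 * A.card ^ 2 + 2 * A.card * κ ^ 2 := by
  rcases st_trivial A κ with h1 | h1
  swap
  · calc (rl A κ).card * κ ^ 3 = (rl A κ).card * κ * κ ^ 2 := by ring
      _ ≤ 2 * A.card * κ ^ 2 := Nat.mul_le_mul_right _ h1
      _ ≤ _ := Nat.le_add_left _ _
  rcases lt_or_ge κ 36 with h2 | h2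
  · have h3 : κ ^ 3 ≤ 36 ^ 3 := Nat.pow_le_pow_left h2.le 3
    calc (rl A κ).card * κ ^ 3 ≤ A.card ^ 2 * 36 ^ 3 := Nat.mul_le_mul (card_rl_le A κ) h3
      _ = 46656 * A.card ^ 2 := by ring
      _ ≤ _ := Nat.le_add_right _ _
  · set m := Nat.log 2 (κ / 36) with hm
    have h3 : 2 ^ m ≤ κ / 36 := Nat.pow_log_le_self 2 (by omega)
    have h4 : κ / 36 < 2 ^ (m + 1) := Nat.lt_pow_succ_log_self (by norm_num) _
    have h5 : 36 * 2 ^ m ≤ κ := by omega
    have h6 : κ ≤ 72 * 2 ^ m := by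
      have : (2:ℕ) ^ (m + 1) = 2 * 2 ^ m := by rw [pow_succ]; ring
      omega
    have h7 := st_core A m κ h5
    set N := (rl A κ).card with hN
    set a := 2 ^ m with ha
    -- multiply by `72`
    have h8 : N * κ ^ 3 ≤ 72 * (a * (κ ^ 2 * N)) := by
      calc N * κ ^ 3 = κ * (κ ^ 2 * N) := by ring
        _ ≤ 72 * a * (κ ^ 2 * N) := Nat.mul_le_mul_right _ h6
        _ = 72 * (a * (κ ^ 2 * N)) := by ring
    have h9 : 72 * (a * (κ ^ 2 * (8 * a))) ≤ 2 * A.card * κ ^ 2 := by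
      have h10 : 576 * (a * a) ≤ κ * κ := by nlinarith
      have h11 : 72 * (a * (κ ^ 2 * (8 * a))) = 576 * (a * a) * κ ^ 2 := by ring
      rw [h11]
      refine Nat.mul_le_mul_right _ ?_
      calc 576 * (a * a) ≤ κ * κ := h10
        _ = κ ^ 2 := (sq κ).symm
        _ ≤ 2 * A.card := h1
    calc N * κ ^ 3 ≤ 72 * (a * (κ ^ 2 * N)) := h8
      _ ≤ 72 * (72 * A.card ^ 2 + a * (κ ^ 2 * (8 * a))) := Nat.mul_le_mul_left _ h7
      _ = 5184 * A.card ^ 2 + 72 * (a * (κ ^ 2 * (8 * a))) := by ring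
      _ ≤ 46656 * A.card ^ 2 + 2 * A.card * κ ^ 2 := by
          refine Nat.add_le_add ?_ h9
          exact Nat.mul_le_mul_right _ (by norm_num)

open scoped Classical in
/-- pairs with `κ ≤ lineC < 2 κ` -/
theorem card_pairs_dyadic (A : Finset V) (κ : ℕ) :
    (A.offDiag.filter fun p => κ ≤ lineC A p.1 p.2 ∧ lineC A p.1 p.2 < 2 * κ).card ≤
      (2 * κ) ^ 2 * (rl A κ).card := by
  refine Finset.card_le_mul_card_image_of_maps_to (f := ln A) ?_ _ ?_
  · intro p hp
    rw [mem_filter] at hp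
    exact mem_rl.2 ⟨p, hp.1, hp.2.1, rfl⟩
  · intro L hL
    rcases ((A.offDiag.filter fun p => κ ≤ lineC A p.1 p.2 ∧
        lineC A p.1 p.2 < 2 * κ).filter fun p => ln A p = L).eq_empty_or_nonempty
      with h0 | ⟨p, hp⟩
    · rw [h0]; simp
    rw [mem_filter, mem_filter] at hp
    obtain ⟨⟨hp1, hp2, hp3⟩, rfl⟩ := hp
    have h1 : ((A.offDiag.filter fun q => κ ≤ lineC A q.1 q.2 ∧
        lineC A q.1 q.2 < 2 * κ).filter fun q => ln A q = ln A p) ⊆ ln A p ×ˢ ln A p := by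
      intro q hq
      rw [mem_filter, mem_filter] at hq
      rw [mem_product]
      have h4 := fst_mem_ln hq.1.1
      have h5 := snd_mem_ln hq.1.1
      rw [hq.2] at h4 h5
      exact ⟨h4, h5⟩
    refine (card_le_card h1).trans ?_
    rw [card_product, card_ln, sq]
    exact Nat.mul_le_mul hp3.le hp3.le

open scoped Classical in
theorem card_dyadic_sum (A : Finset V) (k : ℕ) (hk : 1 ≤ k) (J : ℕ) :
    ((A.offDiag.filter fun p => k ≤ lineC A p.1 p.2 ∧
        lineC A p.1 p.2 < k * 2 ^ J).card : ℝ) ≤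
      186624 * ((A.card : ℝ) ^ 2 / k) * (2 - 2 / 2 ^ J) + 8 * A.card * (k * 2 ^ J) := by
  have hk0 : (0:ℝ) < k := by exact_mod_cast hk
  induction J with
  | zero =>
    have h0 : (A.offDiag.filter fun p => k ≤ lineC A p.1 p.2 ∧
        lineC A p.1 p.2 < k * 2 ^ 0) = ∅ := by
      ext p
      simp only [mem_filter, pow_zero, mul_one, notMem_empty, iff_false, not_and]
      intro _ h1 h2
      omega
    rw [h0]
    norm_num
    positivity
  | succ J ih =>
    have hsub : (A.offDiag.filter fun p => k ≤ lineC A p.1 p.2 ∧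
        lineC A p.1 p.2 < k * 2 ^ (J + 1)) ⊆
        (A.offDiag.filter fun p => k ≤ lineC A p.1 p.2 ∧
          lineC A p.1 p.2 < k * 2 ^ J) ∪
        (A.offDiag.filter fun p => k * 2 ^ J ≤ lineC A p.1 p.2 ∧
          lineC A p.1 p.2 < 2 * (k * 2 ^ J)) := by
      intro p hp
      rw [mem_filter] at hp
      rw [mem_union, mem_filter, mem_filter]
      rcases lt_or_ge (lineC A p.1 p.2) (k * 2 ^ J) with h | h
      · exact Or.inl ⟨hp.1, hp.2.1, h⟩
      · refine Or.inr ⟨hp.1, h, ?_⟩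
        calc lineC A p.1 p.2 < k * 2 ^ (J + 1) := hp.2.2
          _ = 2 * (k * 2 ^ J) := by rw [pow_succ]; ring
    have h1 : ((A.offDiag.filter fun p => k ≤ lineC A p.1 p.2 ∧
        lineC A p.1 p.2 < k * 2 ^ (J + 1)).card : ℝ) ≤
        ((A.offDiag.filter fun p => k ≤ lineC A p.1 p.2 ∧
          lineC A p.1 p.2 < k * 2 ^ J).card : ℝ) +
        ((A.offDiag.filter fun p => k * 2 ^ J ≤ lineC A p.1 p.2 ∧
          lineC A p.1 p.2 < 2 * (k * 2 ^ J)).card : ℝ) := by
      exact_mod_cast (card_le_card hsub).trans (card_union_le _ _)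
    have h2 : ((A.offDiag.filter fun p => k * 2 ^ J ≤ lineC A p.1 p.2 ∧
          lineC A p.1 p.2 < 2 * (k * 2 ^ J)).card : ℝ) ≤
        (2 * ((k * 2 ^ J : ℕ) : ℝ)) ^ 2 * ((rl A (k * 2 ^ J)).card : ℝ) := by
      exact_mod_cast card_pairs_dyadic A (k * 2 ^ J)
    have h3 : ((rl A (k * 2 ^ J)).card : ℝ) * ((k * 2 ^ J : ℕ) : ℝ) ^ 3 ≤
        46656 * (A.card : ℝ) ^ 2 + 2 * A.card * ((k * 2 ^ J : ℕ) : ℝ) ^ 2 := by
      exact_mod_cast st_lines A (k * 2 ^ J)
    set κ : ℝ := ((k * 2 ^ J : ℕ) : ℝ) with hκd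
    have hκe : κ = k * 2 ^ J := by rw [hκd]; push_cast; ring
    have hκ0 : 0 < κ := by rw [hκe]; positivity
    have h4 : (2 * κ) ^ 2 * ((rl A (k * 2 ^ J)).card : ℝ) ≤
        186624 * ((A.card : ℝ) ^ 2 / κ) + 8 * A.card * κ := by
      have h5 : (2 * κ) ^ 2 * ((rl A (k * 2 ^ J)).card : ℝ) =
          4 * (((rl A (k * 2 ^ J)).card : ℝ) * κ ^ 3) / κ := by
        field_simp
        ring
      have h6 : 186624 * ((A.card : ℝ) ^ 2 / κ) + 8 * A.card * κ =
          4 * (46656 * (A.card : ℝ) ^ 2 + 2 * A.card * κ ^ 2) / κ := by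
        field_simp
        ring
      rw [h5, h6]
      exact div_le_div_of_nonneg_right (by linarith) hκ0.le
    have h5 : 186624 * ((A.card : ℝ) ^ 2 / κ) =
        186624 * ((A.card : ℝ) ^ 2 / k) * (1 / 2 ^ J) := by
      rw [hκe]
      field_simp
    have h6 : (2:ℝ) - 2 / 2 ^ (J + 1) = (2 - 2 / 2 ^ J) + 1 / 2 ^ J := by
      rw [pow_succ]
      field_simp
      ring
    rw [h6, mul_add]
    have h7 : 8 * (A.card : ℝ) * (k * 2 ^ (J + 1)) =
        8 * A.card * (k * 2 ^ J) + 8 * A.card * κ := by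
      rw [hκe, pow_succ]; ring
    rw [h7]
    have h8 := h1.trans (add_le_add ih (h2.trans h4))
    rw [h5] at h8
    linarith

open scoped Classical in
/-- **(P2)** pairs of `A` on lines with at least `k` points, every line having at most `L` points:
at most `373248 n² / k + 16 n L` -/
theorem st_pairs (A : Finset V) (k L : ℕ) (hk : 1 ≤ k)
    (hL : ∀ p ∈ A.offDiag, lineC A p.1 p.2 ≤ L) :
    ((A.offDiag.filter fun p => k ≤ lineC A p.1 p.2).card : ℝ) ≤
      373248 * ((A.card : ℝ) ^ 2 / k) + 16 * A.card * L := by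
  have hk0 : (0:ℝ) < k := by exact_mod_cast hk
  rcases lt_or_ge L k with hLk | hLk
  · have h0 : (A.offDiag.filter fun p => k ≤ lineC A p.1 p.2) = ∅ := by
      ext p
      simp only [mem_filter, notMem_empty, iff_false, not_and]
      intro hp h
      have := hL p hp
      omega
    rw [h0]
    simp only [card_empty, Nat.cast_zero]
    positivity
  have hex : ∃ J, L < k * 2 ^ J := ⟨L, by
    calc L < 2 ^ L := Nat.lt_two_pow_self
      _ ≤ k * 2 ^ L := Nat.le_mul_of_pos_left _ hk⟩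
  set J := Nat.find hex with hJ
  have hJ1 : L < k * 2 ^ J := Nat.find_spec hex
  have hJ2 : k * 2 ^ J ≤ 2 * L := by
    rcases Nat.eq_zero_or_pos J with h0 | h0
    · rw [h0, pow_zero, mul_one]; omega
    · have h1 := Nat.find_min hex (m := J - 1) (by omega)
      push Not at h1
      have h2 : k * 2 ^ J = 2 * (k * 2 ^ (J - 1)) := by
        obtain ⟨j, hj⟩ : ∃ j, J = j + 1 := ⟨J - 1, by omega⟩
        rw [hj, Nat.add_sub_cancel, pow_succ]; ring
      omega
  have hsub : (A.offDiag.filter fun p => k ≤ lineC A p.1 p.2) ⊆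
      (A.offDiag.filter fun p => k ≤ lineC A p.1 p.2 ∧ lineC A p.1 p.2 < k * 2 ^ J) := by
    intro p hp
    rw [mem_filter] at hp ⊢
    have := hL p hp.1
    exact ⟨hp.1, hp.2, by omega⟩
  have h1 : ((A.offDiag.filter fun p => k ≤ lineC A p.1 p.2).card : ℝ) ≤
      ((A.offDiag.filter fun p => k ≤ lineC A p.1 p.2 ∧
        lineC A p.1 p.2 < k * 2 ^ J).card : ℝ) := by
    exact_mod_cast card_le_card hsub
  have h2 := card_dyadic_sum A k hk J
  have h3 : (0:ℝ) ≤ 186624 * ((A.card : ℝ) ^ 2 / k) := by positivity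
  have h4 : (0:ℝ) ≤ 2 / 2 ^ J := by positivity
  have h5 : 186624 * ((A.card : ℝ) ^ 2 / k) * (2 - 2 / 2 ^ J) ≤
      373248 * ((A.card : ℝ) ^ 2 / k) := by nlinarith
  have h6 : (k * 2 ^ J : ℝ) ≤ 2 * L := by exact_mod_cast hJ2
  have h7 : 8 * (A.card : ℝ) * (k * 2 ^ J) ≤ 16 * A.card * L := by
    have : (0:ℝ) ≤ 8 * A.card := by positivity
    nlinarith
  linarith

end Vale.Agent.P054.T3.H109.Gen
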