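import Vale.Agent.P054.T3.H109.WarrenRel
import Vale.Agent.P054.T3.H109.LineCells

set_option autoImplicit false
set_option linter.all false

/-!
# P054 / T3 / H109: a `k`-flat meets at most `(k (D + 2)) ^ k` sign classes
-/

namespace Vale.Agent.P054.T3.H109

open Finset MvPolynomial

variable {k : ℕ}

/-- univariate polynomial with given coefficients -/
noncomputable def uni {r : ℕ} (c : Fin r → ℝ) : Polynomial ℝ :=
  ∑ i, Polynomial.C (c i) * Polynomial.X ^ (i : ℕ)

theorem uni_eval {r : ℕ} (c : Fin r → ℝ) (z : ℝ) : (uni c).eval z = ∑ i, c i * z ^ (i : ℕ) := by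
  unfold uni; simp [Polynomial.eval_finsetSum]

theorem uni_coeff {r : ℕ} (c : Fin r → ℝ) (i : Fin r) : (uni c).coeff (i : ℕ) = c i := by
  unfold uni
  rw [Polynomial.finset_sum_coeff, Finset.sum_eq_single i]
  · simp
  · intro j _ hj
    rw [Polynomial.coeff_C_mul_X_pow, if_neg]
    intro h; exact hj (Fin.ext h.symm)
  · intro h; exact absurd (mem_univ _) h

theorem uni_ne_zero {r : ℕ} (c : Fin r → ℝ) (hc : c ≠ 0) : uni c ≠ 0 := by
  intro h
  apply hc
  funext i
  rw [← uni_coeff c i, h, Polynomial.coeff_zero, Pi.zero_apply]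

theorem uni_natDegree {r : ℕ} (c : Fin r → ℝ) : (uni c).natDegree ≤ r - 1 := by
  unfold uni
  refine Polynomial.natDegree_sum_le_of_forall_le _ _ fun i _ => ?_
  refine (Polynomial.natDegree_C_mul_X_pow_le _ _).trans ?_
  have := i.2
  omega

/-- finitely many linear forms are enough to separate any `N` points -/
theorem exists_sep (N : ℕ) (T : Finset (Fin k → ℝ)) (hT : T.card ≤ N) :
    ∃ a ∈ range (N * N * k + 1), Set.InjOn
      (fun x : Fin k → ℝ => eval x (lin fun i => (a : ℝ) ^ (i : ℕ))) (T : Set (Fin k → ℝ)) := by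
  classical
  by_contra hcon
  push Not at hcon
  have h1 : range (N * N * k + 1) ⊆ T.offDiag.biUnion fun p =>
      (range (N * N * k + 1)).filter fun a => (uni (p.1 - p.2)).eval (a : ℝ) = 0 := by
    intro a ha
    have h2 := hcon a ha
    unfold Set.InjOn at h2
    push Not at h2
    obtain ⟨x, hx, y, hy, hxy, hne⟩ := h2
    rw [mem_biUnion]
    refine ⟨(x, y), mem_offDiag.2 ⟨mem_coe.1 hx, mem_coe.1 hy, hne⟩, mem_filter.2 ⟨ha, ?_⟩⟩
    rw [uni_eval]
    simp only [eval_lin] at hxy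
    calc ∑ i : Fin k, (x - y) i * (a : ℝ) ^ (i : ℕ) =
        ∑ i : Fin k, (a : ℝ) ^ (i : ℕ) * x i - ∑ i : Fin k, (a : ℝ) ^ (i : ℕ) * y i := by
          rw [← Finset.sum_sub_distrib]
          refine Finset.sum_congr rfl fun i _ => ?_
          rw [Pi.sub_apply]; ring
      _ = 0 := by rw [hxy, sub_self]
  have h2 : ∀ p ∈ T.offDiag, ((range (N * N * k + 1)).filter fun a : ℕ =>
      (uni (p.1 - p.2)).eval (a : ℝ) = 0).card ≤ k := by
    intro p hp
    rw [mem_offDiag] at hp
    have h0 : uni (p.1 - p.2) ≠ 0 := uni_ne_zero _ (sub_ne_zero.2 hp.2.2)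
    have h3 : (((range (N * N * k + 1)).filter fun a : ℕ =>
        (uni (p.1 - p.2)).eval (a : ℝ) = 0).image fun a : ℕ => (a : ℝ)) ⊆
        (uni (p.1 - p.2)).roots.toFinset := by
      intro z hz
      obtain ⟨a, ha, rfl⟩ := mem_image.1 hz
      rw [Multiset.mem_toFinset, Polynomial.mem_roots h0]
      exact (mem_filter.1 ha).2
    have h4 := card_le_card h3
    rw [card_image_of_injective _ Nat.cast_injective] at h4
    refine h4.trans ((Multiset.toFinset_card_le _).trans
      ((Polynomial.card_roots' _).trans ((uni_natDegree _).trans (Nat.sub_le _ _))))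
  have h3 := (card_le_card h1).trans (card_biUnion_le_card_mul _ _ _ h2)
  rw [card_range] at h3
  have h4 : T.offDiag.card ≤ N * N := by
    rw [offDiag_card]
    exact (Nat.sub_le _ _).trans (Nat.mul_le_mul hT hT)
  have h5 : T.offDiag.card * k ≤ N * N * k := Nat.mul_le_mul_right _ h4
  omega

theorem toPoly_ne_zero {e : ℕ} {c : (Fin k → Fin (e + 1)) → ℝ} (hc : c ≠ 0) :
    toPoly e c ≠ 0 := by
  intro h
  apply hc
  funext α
  rw [← toPoly_coeff e c α, h, coeff_zero, Pi.zero_apply]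

/-- **Warren's bound** (up to the constant): polynomials of total degree `D` in `k` variables
have at most `(k (D + 2)) ^ k` nonzero sign patterns -/
theorem card_cells_le {J : ℕ} (g : Fin J → MvPolynomial (Fin k) ℝ) (S : Finset (Fin J → Bool))
    (hS : ∀ s ∈ S, ∃ x, cell g s x) :
    S.card ≤ (k * (∑ j, (g j).totalDegree + 2)) ^ k := by
  classical
  by_contra hcon
  push Not at hcon
  choose! x hx using hS
  set R : ℝ := ∑ s ∈ S, ∑ i, (x s i) ^ 2 + 1 with hR
  have hxR : ∀ s ∈ S, ∑ i, (x s i) ^ 2 < R := by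
    intro s hs
    have := Finset.single_le_sum (f := fun s => ∑ i, (x s i) ^ 2)
      (fun s _ => Finset.sum_nonneg fun i _ => sq_nonneg (x s i)) hs
    linarith
  set D := ∑ j, (g j).totalDegree + 2 with hD
  set G : MvPolynomial (Fin k) ℝ := ballP k R * ∏ j, g j with hG
  have hGD : G.totalDegree ≤ D := by
    refine (totalDegree_mul _ _).trans ?_
    have h1 := totalDegree_ballP (k := k) R
    have h2 : (∏ j, g j).totalDegree ≤ ∑ j, (g j).totalDegree :=
      totalDegree_finset_prod (univ : Finset (Fin J)) g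
    omega
  choose M c hc0 hc using fun a : ℕ =>
    exists_rel G (lin fun i : Fin k => (a : ℝ) ^ (i : ℕ)) (totalDegree_lin _) D hGD
  have hj : ∀ a, ∃ j, c a j ≠ 0 := by
    intro a
    by_contra h
    push Not at h
    exact hc0 a (funext h)
  choose j hj using hj
  set N := S.card with hN
  have hQ : ∏ a ∈ range (N * N * k + 1), toPoly (M a) (c a (j a)) ≠ 0 :=
    Finset.prod_ne_zero_iff.2 fun a _ => toPoly_ne_zero (hj a)
  obtain ⟨v, hv⟩ : ∃ v, eval v (∏ a ∈ range (N * N * k + 1), toPoly (M a) (c a (j a))) ≠ 0 := by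
    by_contra h
    push Not at h
    apply hQ
    apply MvPolynomial.funext
    intro v
    rw [h v, map_zero]
  rw [map_prod, Finset.prod_ne_zero_iff] at hv
  have hcrit : ∀ s ∈ S, ∃ y, cell g s y ∧ eval y G ≠ 0 ∧
      ∀ i, eval y (pderiv i G) = v i * eval y G := fun s hs =>
    exists_crit g s R (x s) (hx s hs) (hxR s hs) v
  choose! y hy1 hy2 hy3 using hcrit
  have hinj : Set.InjOn y (S : Set (Fin J → Bool)) := by
    intro s hs s' hs' h
    have h1 := hy1 s (mem_coe.1 hs)
    rw [h] at h1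
    exact cell_unique h1 (hy1 s' (mem_coe.1 hs'))
  obtain ⟨a, ha, hsep⟩ := exists_sep (k := k) N (S.image y) card_image_le
  set h : Polynomial ℝ := uni fun i => eval v (toPoly (M a) (c a i)) with hh
  have hh0 : h ≠ 0 := by
    refine uni_ne_zero _ fun h0 => hv a ha ?_
    exact congrFun h0 (j a)
  have hroots : (S.image y).image
      (fun x : Fin k → ℝ => eval x (lin fun i => (a : ℝ) ^ (i : ℕ))) ⊆ h.roots.toFinset := by
    intro z hz
    obtain ⟨w, hw, rfl⟩ := mem_image.1 hz
    obtain ⟨s, hs, rfl⟩ := mem_image.1 hw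
    rw [Multiset.mem_toFinset, Polynomial.mem_roots hh0, Polynomial.IsRoot, hh, uni_eval]
    exact hc a (y s) v (hy2 s hs) (hy3 s hs)
  have h1 := card_le_card hroots
  rw [card_image_of_injOn hsep, card_image_of_injOn hinj] at h1
  have h2 := h1.trans ((Multiset.toFinset_card_le _).trans
      ((Polynomial.card_roots' _).trans (uni_natDegree _)))
  omega

/-! ### flats -/

section flats

variable {σ : Type*}

/-- the point with parameter `x` of the flat `p + span w` -/
def fl (p : σ → ℝ) (w : Fin k → σ → ℝ) (x : Fin k → ℝ) : σ → ℝ := fun a => p a + ∑ i, x i * w i a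

/-- pull back to a flat -/
noncomputable def pull (p : σ → ℝ) (w : Fin k → σ → ℝ) (f : MvPolynomial σ ℝ) :
    MvPolynomial (Fin k) ℝ :=
  bind₁ (fun a => C (p a) + ∑ i, X i * C (w i a)) f

theorem eval_pull (p : σ → ℝ) (w : Fin k → σ → ℝ) (f : MvPolynomial σ ℝ) (x : Fin k → ℝ) :
    eval x (pull p w f) = eval (fl p w x) f := by
  unfold pull
  have h1 : fl p w x = fun a => eval x (C (p a) + ∑ i, X i * C (w i a)) := by
    funext a
    simp [fl, map_sum]
  rw [h1]
  exact eval₂Hom_bind₁ (RingHom.id ℝ) x _ f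

theorem totalDegree_pull (p : σ → ℝ) (w : Fin k → σ → ℝ) (f : MvPolynomial σ ℝ) :
    (pull p w f).totalDegree ≤ f.totalDegree := by
  classical
  unfold pull
  conv_lhs => rw [f.as_sum]
  rw [map_sum]
  refine totalDegree_finsetSum_le fun m hm => ?_
  rw [bind₁_monomial]
  refine (totalDegree_mul _ _).trans ?_
  rw [totalDegree_C, zero_add]
  have h1 : ∀ a : σ, (C (p a) + ∑ i, X i * C (w i a) : MvPolynomial (Fin k) ℝ).totalDegree ≤ 1 := by
    intro a
    refine (totalDegree_add _ _).trans (max_le ?_ ?_)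
    · rw [totalDegree_C]; norm_num
    · refine totalDegree_finsetSum_le fun i _ => ?_
      refine (totalDegree_mul _ _).trans ?_
      rw [totalDegree_C, totalDegree_X]
  refine (totalDegree_finset_prod _ _).trans ?_
  refine le_trans (Finset.sum_le_sum (g := fun a => m a) fun a _ => ?_) (le_totalDegree hm)
  refine (totalDegree_pow _ _).trans ?_
  calc m a * _ ≤ m a * 1 := Nat.mul_le_mul_left _ (h1 a)
    _ = m a := mul_one _

theorem cell_pull {J : ℕ} (f : Fin J → MvPolynomial σ ℝ) (s : Fin J → Bool) (p : σ → ℝ)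
    (w : Fin k → σ → ℝ) (x : Fin k → ℝ) :
    cell (fun j => pull p w (f j)) s x ↔ cell f s (fl p w x) := by
  unfold cell
  simp only [eval_pull]

/-- a `k`-flat meets at most `(k (D + 2)) ^ k` sign classes -/
theorem card_cells_flat {J : ℕ} (f : Fin J → MvPolynomial σ ℝ) (p : σ → ℝ) (w : Fin k → σ → ℝ)
    (S : Finset (Fin J → Bool)) (hS : ∀ s ∈ S, ∃ x, cell f s (fl p w x)) :
    S.card ≤ (k * (∑ j, (f j).totalDegree + 2)) ^ k := by
  refine (card_cells_le (fun j => pull p w (f j)) S fun s hs => ?_).trans ?_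
  · obtain ⟨x, hx⟩ := hS s hs
    exact ⟨x, (cell_pull f s p w x).2 hx⟩
  · refine Nat.pow_le_pow_left (Nat.mul_le_mul_left _ (Nat.add_le_add_right ?_ _)) _
    exact Finset.sum_le_sum fun j _ => totalDegree_pull p w (f j)

/-- the sign vector of a point -/
noncomputable def sgn {J : ℕ} (f : Fin J → MvPolynomial σ ℝ) (y : σ → ℝ) : Fin J → Bool :=
  fun j => decide (0 < eval y (f j))

theorem cell_sgn {J : ℕ} {f : Fin J → MvPolynomial σ ℝ} {y : σ → ℝ}
    (h : ∀ j, eval y (f j) ≠ 0) : cell f (sgn f y) y := by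
  intro j
  unfold sgn
  by_cases hj : 0 < eval y (f j)
  · simp [hj]
  · have : eval y (f j) < 0 := lt_of_le_of_ne (not_lt.1 hj) (h j)
    simp [hj, this]

theorem sgn_eq_iff {J : ℕ} {f : Fin J → MvPolynomial σ ℝ} {y z : σ → ℝ}
    (hy : ∀ j, eval y (f j) ≠ 0) (hz : ∀ j, eval z (f j) ≠ 0) :
    sgn f y = sgn f z ↔ ∃ s, cell f s y ∧ cell f s z := by
  constructor
  · intro h
    exact ⟨sgn f y, cell_sgn hy, h ▸ cell_sgn hz⟩
  · rintro ⟨s, h1, h2⟩
    rw [cell_unique (cell_sgn hy) h1, cell_unique (cell_sgn hz) h2]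

open scoped Classical in
/-- number of classes met by the points of `T`, all on one `k`-flat -/
theorem card_image_sgn_flat {ι : Type*} {J : ℕ} (f : Fin J → MvPolynomial σ ℝ) (T : Finset ι)
    (φ : ι → σ → ℝ) (p : σ → ℝ) (w : Fin k → σ → ℝ) (hT : ∀ t ∈ T, ∃ x, φ t = fl p w x)
    (h0 : ∀ t ∈ T, ∀ j, eval (φ t) (f j) ≠ 0) :
    (T.image fun t => sgn f (φ t)).card ≤ (k * (∑ j, (f j).totalDegree + 2)) ^ k := by
  refine card_cells_flat f p w _ fun s hs => ?_
  obtain ⟨t, ht, rfl⟩ := mem_image.1 hs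
  obtain ⟨x, hx⟩ := hT t ht
  refine ⟨x, ?_⟩
  rw [← hx]
  exact cell_sgn (h0 t ht)

open scoped Classical in
/-- Cauchy–Schwarz form: if the points of `T` lie on one `k`-flat and off the zero sets, then
`|T|² ≤ (k (D + 2)) ^ k * #{same-class pairs}` -/
theorem sq_card_flat {ι : Type*} {J : ℕ} (f : Fin J → MvPolynomial σ ℝ) (T : Finset ι)
    (φ : ι → σ → ℝ) (p : σ → ℝ) (w : Fin k → σ → ℝ) (hT : ∀ t ∈ T, ∃ x, φ t = fl p w x)
    (h0 : ∀ t ∈ T, ∀ j, eval (φ t) (f j) ≠ 0) :
    T.card ^ 2 ≤ (k * (∑ j, (f j).totalDegree + 2)) ^ k *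
      ((T ×ˢ T).filter fun q => ∃ s, cell f s (φ q.1) ∧ cell f s (φ q.2)).card := by
  refine (sq_card_le_image_mul T fun t => sgn f (φ t)).trans ?_
  refine Nat.mul_le_mul (card_image_sgn_flat f T φ p w hT h0) (card_le_card ?_)
  intro q hq
  rw [mem_filter, mem_product] at hq ⊢
  exact ⟨hq.1, (sgn_eq_iff (h0 _ hq.1.1) (h0 _ hq.1.2)).1 hq.2⟩

end flats

end Vale.Agent.P054.T3.H109
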