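import Vale.Agent.P054.T3.H109.Part
import Mathlib.Algebra.MvPolynomial.PDeriv
import Mathlib.Analysis.SpecialFunctions.ExpDeriv
import Mathlib.Analysis.Calculus.LocalExtr.Basic
import Mathlib.Analysis.Calculus.Deriv.Pow
import Mathlib.Topology.Algebra.MvPolynomial
import Mathlib.Tactic

set_option autoImplicit false
set_option linter.all false

/-!
# P054 / T3 / H109: a point of a sign class with prescribed logarithmic gradient
-/

namespace Vale.Agent.P054.T3.H109

open Finset MvPolynomial

variable {k : ℕ}

/-- derivative of a polynomial function along a coordinate -/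
theorem hasDerivAt_update (G : MvPolynomial (Fin k) ℝ) (x : Fin k → ℝ) (i : Fin k) (t : ℝ) :
    HasDerivAt (fun t => eval (Function.update x i t) G)
      (eval (Function.update x i t) (pderiv i G)) t := by
  induction G using MvPolynomial.induction_on with
  | C a => simpa using hasDerivAt_const t a
  | add p q hp hq =>
    rw [map_add, map_add]
    simp only [map_add]
    exact hp.fun_add hq
  | mul_X p j hp =>
    have h1 : HasDerivAt (fun t : ℝ => eval (Function.update x i t) (X j : MvPolynomial (Fin k) ℝ))
        (eval (Function.update x i t) (pderiv i (X j : MvPolynomial (Fin k) ℝ))) t := by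
      rw [pderiv_X]
      simp only [eval_X]
      by_cases h : j = i
      · subst h
        simp only [Function.update_self, Pi.single_eq_same, map_one]
        exact hasDerivAt_id t
      · simp only [Function.update_of_ne h]
        rw [Pi.single_eq_of_ne (Ne.symm (Ne.symm h)), map_zero]
        exact hasDerivAt_const t _
    have h2 := hp.fun_mul h1
    rw [pderiv_mul, map_add, map_mul, map_mul]
    simp only [map_mul]
    exact h2

/-- the linear polynomial -/
noncomputable def lin (v : Fin k → ℝ) : MvPolynomial (Fin k) ℝ := ∑ i, C (v i) * X i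

theorem eval_lin (v x : Fin k → ℝ) : eval x (lin v) = ∑ i, v i * x i := by
  unfold lin; simp [map_sum]

theorem pderiv_lin (v : Fin k → ℝ) (i : Fin k) : pderiv i (lin v) = C (v i) := by
  unfold lin
  rw [map_sum, Finset.sum_eq_single i]
  · rw [pderiv_mul, pderiv_C, pderiv_X_self]; simp
  · intro j _ hj
    rw [pderiv_mul, pderiv_C, pderiv_X_of_ne hj]; simp
  · intro h; exact absurd (mem_univ _) h

theorem totalDegree_lin (v : Fin k → ℝ) : (lin v).totalDegree ≤ 1 := by
  refine totalDegree_finsetSum_le fun i _ => ?_
  refine (totalDegree_mul _ _).trans ?_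
  rw [totalDegree_C, totalDegree_X]

/-- the ball polynomial -/
noncomputable def ballP (k : ℕ) (R : ℝ) : MvPolynomial (Fin k) ℝ := C R - ∑ i, X i ^ 2

theorem eval_ballP (R : ℝ) (x : Fin k → ℝ) : eval x (ballP k R) = R - ∑ i, x i ^ 2 := by
  unfold ballP; simp [map_sum]

theorem totalDegree_ballP (R : ℝ) : (ballP k R).totalDegree ≤ 2 := by
  unfold ballP
  refine (totalDegree_sub _ _).trans (max_le ?_ ?_)
  · rw [totalDegree_C]; norm_num
  · refine totalDegree_finsetSum_le fun i _ => ?_
    refine (totalDegree_pow _ _).trans ?_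
    rw [totalDegree_X]

/-- in every sign class met by the open ball there is a point where `∇G = v G`, `G ≠ 0` -/
theorem exists_crit {J : ℕ} (g : Fin J → MvPolynomial (Fin k) ℝ) (s : Fin J → Bool) (R : ℝ)
    (x₀ : Fin k → ℝ) (h0 : cell g s x₀) (hR : ∑ i, x₀ i ^ 2 < R) (v : Fin k → ℝ) :
    ∃ x, cell g s x ∧ eval x (ballP k R * ∏ j, g j) ≠ 0 ∧
      ∀ i, eval x (pderiv i (ballP k R * ∏ j, g j)) = v i * eval x (ballP k R * ∏ j, g j) := by
  classical
  set G : MvPolynomial (Fin k) ℝ := ballP k R * ∏ j, g j with hG
  set F : (Fin k → ℝ) → ℝ := fun x => (eval x G) ^ 2 * Real.exp (-(2 * eval x (lin v))) with hF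
  have hFc : Continuous F := by
    have h1 := MvPolynomial.continuous_eval G
    have h2 := MvPolynomial.continuous_eval (lin v)
    fun_prop
  set K : Set (Fin k → ℝ) := {x | ∑ i, x i ^ 2 ≤ R ∧
    ∀ j, if s j then 0 ≤ eval x (g j) else eval x (g j) ≤ 0} with hK
  have hR0 : 0 ≤ R := (Finset.sum_nonneg fun i _ => sq_nonneg (x₀ i)).trans hR.le
  have hKclosed : IsClosed K := by
    have h1 : K = {x | ∑ i, x i ^ 2 ≤ R} ∩
        ⋂ j, {x | if s j then 0 ≤ eval x (g j) else eval x (g j) ≤ 0} := by
      ext x; simp [hK]
    rw [h1]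
    refine IsClosed.inter (isClosed_le (by fun_prop) continuous_const) (isClosed_iInter fun j => ?_)
    rcases hs : s j with _ | _
    · simpa using isClosed_le (MvPolynomial.continuous_eval (g j)) continuous_const
    · simpa using isClosed_le continuous_const (MvPolynomial.continuous_eval (g j))
  have hKcomp : IsCompact K := by
    refine (isCompact_univ_pi (fun i : Fin k =>
      isCompact_Icc (a := -(R + 1)) (b := R + 1))).of_isClosed_subset hKclosed ?_
    intro x hx i _
    have h1 : x i ^ 2 ≤ R :=
      (Finset.single_le_sum (f := fun i => x i ^ 2) (fun i _ => sq_nonneg (x i))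
        (mem_univ i)).trans hx.1
    constructor <;> nlinarith
  have hx0K : x₀ ∈ K := by
    refine ⟨hR.le, fun j => ?_⟩
    have := h0 j
    rcases hs : s j with _ | _ <;> rw [hs] at this
    · simpa using (by simpa using this : eval x₀ (g j) < 0).le
    · simpa using (by simpa using this : 0 < eval x₀ (g j)).le
  obtain ⟨x, hxK, hmax⟩ := hKcomp.exists_isMaxOn ⟨x₀, hx0K⟩ hFc.continuousOn
  have hF0 : 0 < F x₀ := by
    have h1 : eval x₀ G ≠ 0 := by
      rw [hG, map_mul, eval_ballP, map_prod]
      refine mul_ne_zero (by linarith) (Finset.prod_ne_zero_iff.2 fun j _ => cell_ne_zero h0 j)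
    have h2 : 0 < (eval x₀ G) ^ 2 := by positivity
    exact mul_pos h2 (Real.exp_pos _)
  have hFx : 0 < F x := hF0.trans_le (hmax hx0K)
  have hGx : eval x G ≠ 0 := by
    intro h
    rw [hF] at hFx
    simp only [h] at hFx
    norm_num at hFx
  have hq : 0 < R - ∑ i, x i ^ 2 := by
    have h1 : eval x (ballP k R) ≠ 0 := by
      intro h; apply hGx; rw [hG, map_mul, h, zero_mul]
    rw [eval_ballP] at h1
    exact lt_of_le_of_ne (by linarith [hxK.1]) (Ne.symm h1)
  have hcell : cell g s x := by
    intro j
    have h1 : eval x (g j) ≠ 0 := by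
      intro h; apply hGx
      rw [hG, map_mul, map_prod, Finset.prod_eq_zero (mem_univ j) h, mul_zero]
    have h2 := hxK.2 j
    rcases hs : s j with _ | _ <;> rw [hs] at h2
    · simp at h2 ⊢; exact lt_of_le_of_ne h2 h1
    · simp at h2 ⊢; exact lt_of_le_of_ne h2 (Ne.symm h1)
  have hnhds : K ∈ nhds x := by
    have h1 : ∀ᶠ y in nhds x, ∑ i, y i ^ 2 < R :=
      (isOpen_lt (by fun_prop) continuous_const).mem_nhds (by
        show ∑ i, x i ^ 2 < R
        linarith)
    have h2 : ∀ᶠ y in nhds x, ∀ j, if s j then 0 < eval y (g j) else eval y (g j) < 0 := by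
      refine Filter.eventually_all.2 fun j => ?_
      have h3 := hcell j
      rcases hs : s j with _ | _ <;> rw [hs] at h3
      · simp only [Bool.false_eq_true, if_false] at h3 ⊢
        exact (isOpen_lt (MvPolynomial.continuous_eval (g j))
          (continuous_const (y := (0:ℝ)))).mem_nhds h3
      · simp only [if_true] at h3 ⊢
        exact (isOpen_lt (continuous_const (y := (0:ℝ)))
          (MvPolynomial.continuous_eval (g j))).mem_nhds h3
    filter_upwards [h1, h2] with y hy1 hy2
    refine ⟨hy1.le, fun j => ?_⟩
    have h3 := hy2 j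
    rcases hs : s j with _ | _ <;> rw [hs] at h3
    · simp at h3 ⊢; exact h3.le
    · simp at h3 ⊢; exact h3.le
  have hloc : IsLocalMax F x := hmax.isLocalMax hnhds
  refine ⟨x, hcell, hGx, fun i => ?_⟩
  have hcont : Continuous fun t : ℝ => Function.update x i t :=
    continuous_const.update i continuous_id
  have hloc2 : IsLocalMax (fun t => F (Function.update x i t)) (x i) := by
    have h1 : Filter.Tendsto (fun t : ℝ => Function.update x i t) (nhds (x i)) (nhds x) := by
      have := hcont.tendsto (x i)
      rwa [Function.update_eq_self] at this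
    have h2 := h1.eventually hloc
    filter_upwards [h2] with t ht
    simpa using ht
  have hd1 := hasDerivAt_update G x i (x i)
  have hd2 := hasDerivAt_update (lin v) x i (x i)
  rw [Function.update_eq_self] at hd1 hd2
  rw [pderiv_lin, eval_C] at hd2
  have hd3 := (hd1.fun_pow 2).fun_mul ((hd2.const_mul 2).fun_neg.exp)
  have hd4 := hloc2.hasDerivAt_eq_zero hd3
  simp only [Function.update_eq_self] at hd4
  have he := Real.exp_pos (-(2 * eval x (lin v)))
  have h5 : (2 * eval x G * (eval x (pderiv i G) - v i * eval x G)) *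
      Real.exp (-(2 * eval x (lin v))) = 0 := by
    have : (2 * eval x G * (eval x (pderiv i G) - v i * eval x G)) *
      Real.exp (-(2 * eval x (lin v))) = 
      ((2 : ℕ) : ℝ) * eval x G ^ (2 - 1) * eval x (pderiv i G) * Real.exp (-(2 * eval x (lin v)))
      + eval x G ^ 2 * (Real.exp (-(2 * eval x (lin v))) * -(2 * v i)) := by
      push_cast; ring
    rw [this]; simpa using hd4
  rcases mul_eq_zero.1 h5 with h | h
  · rcases mul_eq_zero.1 h with h | h
    · exact absurd (by simpa using h) hGx
    · linarith
  · exact absurd h he.ne'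

end Vale.Agent.P054.T3.H109
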