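import Vale.Agent.P054.T3.H109.WarrenCrit
import Mathlib.LinearAlgebra.FiniteDimensional.Lemmas
import Mathlib.LinearAlgebra.Finsupp.LinearCombination
import Mathlib.Analysis.SpecificLimits.Basic

set_option autoImplicit false
set_option linter.all false

/-!
# P054 / T3 / H109: a polynomial relation between `∇G / G` and a linear form
-/

namespace Vale.Agent.P054.T3.H109

open Finset MvPolynomial

variable {k : ℕ}

theorem totalDegree_pderiv_le₀ (i : Fin k) (F : MvPolynomial (Fin k) ℝ) :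
    (pderiv i F).totalDegree ≤ F.totalDegree := by
  classical
  refine Finset.sup_le fun s hs => ?_
  rw [MvPolynomial.mem_support_iff, coeff_pderiv] at hs
  have h1 : coeff (s + Finsupp.single i 1) F ≠ 0 := fun h => hs (by rw [h, zero_mul])
  have h2 := le_totalDegree (MvPolynomial.mem_support_iff.2 h1)
  have h3 : ((s + Finsupp.single i 1).sum fun _ e => e) = (s.sum fun _ e => e) + 1 := by
    rw [Finsupp.sum_add_index' (fun _ => rfl) (fun _ _ _ => rfl), Finsupp.sum_single_index rfl]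
  omega

theorem exists_M (k A B : ℕ) : ∃ M : ℕ, (A * M + B) ^ k < (A ^ k + 1) * (M + 1) ^ k := by
  have h1 : Filter.Tendsto (fun n : ℕ => ((A : ℝ) + B / n) ^ k) Filter.atTop
      (nhds (((A : ℝ) + 0) ^ k)) :=
    (tendsto_const_nhds.add (tendsto_const_div_atTop_nhds_zero_nat (B : ℝ))).pow k
  rw [add_zero] at h1
  obtain ⟨n, hn1, hn2⟩ := ((h1.eventually_lt_const (u := (A : ℝ) ^ k + 1) (by linarith)).and
    (Filter.eventually_gt_atTop 0)).exists
  refine ⟨n - 1, ?_⟩
  have hn : n - 1 + 1 = n := by omega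
  rw [hn]
  have hn0 : (0 : ℝ) < n := by exact_mod_cast hn2
  have h2 : ((A * n + B : ℕ) : ℝ) ^ k < ((A : ℝ) ^ k + 1) * (n : ℝ) ^ k := by
    have h3 : ((A * n + B : ℕ) : ℝ) = ((A : ℝ) + B / n) * n := by
      push_cast; field_simp
    rw [h3, mul_pow]
    exact mul_lt_mul_of_pos_right hn1 (by positivity)
  have h4 : (A * n + B) ^ k < (A ^ k + 1) * n ^ k := by exact_mod_cast h2
  refine lt_of_le_of_lt (Nat.pow_le_pow_left ?_ k) h4
  have : A * (n - 1) ≤ A * n := Nat.mul_le_mul_left _ (by omega)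
  omega

theorem eval_toPoly (e : ℕ) (c : (Fin k → Fin (e + 1)) → ℝ) (v : Fin k → ℝ) :
    eval v (toPoly e c) = ∑ α, c α * ∏ i, v i ^ (α i : ℕ) := by
  unfold toPoly
  rw [map_sum]
  refine Finset.sum_congr rfl fun α _ => ?_
  rw [eval_monomial, Finsupp.prod_fintype _ _ (fun _ => pow_zero _)]
  simp

/-- the polynomial relation -/
theorem exists_rel (G L : MvPolynomial (Fin k) ℝ) (hL : L.totalDegree ≤ 1) (D : ℕ)
    (hG : G.totalDegree ≤ D) :
    ∃ (M : ℕ) (c : Fin ((k * D) ^ k + 1) → (Fin k → Fin (M + 1)) → ℝ), c ≠ 0 ∧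
      ∀ x v : Fin k → ℝ, eval x G ≠ 0 → (∀ i, eval x (pderiv i G) = v i * eval x G) →
        ∑ j, eval v (toPoly M (c j)) * (eval x L) ^ (j : ℕ) = 0 := by
  classical
  set r := (k * D) ^ k with hr
  obtain ⟨M, hM⟩ := exists_M k (k * D) (r + 1)
  set N := k * D * M + r with hN
  let b : Fin (r + 1) × (Fin k → Fin (M + 1)) → MvPolynomial (Fin k) ℝ := fun p =>
    G ^ (k * M - ∑ i, (p.2 i : ℕ)) * (∏ i, (pderiv i G) ^ (p.2 i : ℕ)) * L ^ (p.1 : ℕ)
  have hsum : ∀ α : Fin k → Fin (M + 1), ∑ i, (α i : ℕ) ≤ k * M := by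
    intro α
    calc ∑ i, (α i : ℕ) ≤ ∑ _i : Fin k, M :=
          Finset.sum_le_sum fun i _ => Nat.lt_succ_iff.1 (α i).2
      _ = k * M := by simp
  have hb : ∀ p, (b p).totalDegree ≤ N := by
    rintro ⟨j, α⟩
    have h1 : (G ^ (k * M - ∑ i, (α i : ℕ))).totalDegree ≤ (k * M - ∑ i, (α i : ℕ)) * D :=
      (totalDegree_pow _ _).trans (Nat.mul_le_mul_left _ hG)
    have h2 : (∏ i, (pderiv i G) ^ (α i : ℕ)).totalDegree ≤ (∑ i, (α i : ℕ)) * D := by
      refine (totalDegree_finset_prod _ _).trans ?_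
      rw [Finset.sum_mul]
      refine Finset.sum_le_sum fun i _ => ?_
      exact (totalDegree_pow _ _).trans
        (Nat.mul_le_mul_left _ ((totalDegree_pderiv_le₀ i G).trans hG))
    have h3 : (L ^ (j : ℕ)).totalDegree ≤ r := by
      refine (totalDegree_pow _ _).trans ?_
      have : (j : ℕ) ≤ r := Nat.lt_succ_iff.1 j.2
      calc (j : ℕ) * L.totalDegree ≤ r * 1 := Nat.mul_le_mul this hL
        _ = r := mul_one _
    have h4 : (k * M - ∑ i, (α i : ℕ)) * D + (∑ i, (α i : ℕ)) * D = k * D * M := by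
      rw [← add_mul, Nat.sub_add_cancel (hsum α)]; ring
    calc (b (j, α)).totalDegree ≤ _ := totalDegree_mul _ _
      _ ≤ _ := Nat.add_le_add_right (totalDegree_mul _ _) _
      _ ≤ ((k * M - ∑ i, (α i : ℕ)) * D + (∑ i, (α i : ℕ)) * D) + r :=
          Nat.add_le_add (Nat.add_le_add h1 h2) h3
      _ = N := by rw [h4]
  let Ψ : (Fin (r + 1) × (Fin k → Fin (M + 1)) → ℝ) →ₗ[ℝ] ((Fin k → Fin (N + 1)) → ℝ) :=
    LinearMap.pi fun β => (lcoeff ℝ (Finsupp.equivFunOnFinite.symm fun i => (β i : ℕ))) ∘ₗ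
      Fintype.linearCombination ℝ b
  have hker : LinearMap.ker Ψ ≠ ⊥ := by
    refine LinearMap.ker_ne_bot_of_finrank_lt ?_
    rw [Module.finrank_fintype_fun_eq_card, Module.finrank_fintype_fun_eq_card]
    simp only [Fintype.card_prod, Fintype.card_fin, Fintype.card_pi, Finset.prod_const,
      Finset.card_univ]
    rw [hN, add_assoc]
    exact hM
  obtain ⟨c, hc, hc0⟩ := Submodule.exists_mem_ne_zero_of_ne_bot hker
  have hzero : ∑ p, c p • b p = 0 := by
    have h1 : ∀ β : Fin k → Fin (N + 1),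
        coeff (Finsupp.equivFunOnFinite.symm fun i => (β i : ℕ)) (∑ p, c p • b p) = 0 := by
      intro β
      have h2 := congrFun (LinearMap.mem_ker.1 hc) β
      simpa [Ψ, Fintype.linearCombination_apply, coeff_sum, coeff_smul] using h2
    have h3 : (∑ p, c p • b p).totalDegree ≤ N :=
      totalDegree_finsetSum_le fun p _ => (totalDegree_smul_le _ _).trans (hb p)
    ext m
    rw [coeff_zero]
    by_cases hm : ∀ i, m i ≤ N
    · have := h1 fun i => ⟨m i, Nat.lt_succ_iff.2 (hm i)⟩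
      simpa using this
    · push Not at hm
      obtain ⟨i, hi⟩ := hm
      refine coeff_eq_zero_of_totalDegree_lt (lt_of_le_of_lt h3 (lt_of_lt_of_le hi ?_))
      have : m i ≤ ∑ i ∈ m.support, m i := by
        refine Finset.single_le_sum (f := fun i => m i) (fun i _ => Nat.zero_le _) ?_
        rw [Finsupp.mem_support_iff]; omega
      exact this
  refine ⟨M, fun j α => c (j, α), ?_, ?_⟩
  · intro h
    apply hc0
    funext p
    exact congrFun (congrFun h p.1) p.2
  · intro x v hx hv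
    have h1 : eval x (∑ p, c p • b p) = 0 := by rw [hzero, map_zero]
    have h2 : eval x (∑ p, c p • b p) =
        (eval x G) ^ (k * M) * ∑ j, eval v (toPoly M fun α => c (j, α)) * (eval x L) ^ (j : ℕ) := by
      rw [map_sum, Fintype.sum_prod_type, Finset.mul_sum]
      refine Finset.sum_congr rfl fun j _ => ?_
      rw [eval_toPoly, Finset.sum_mul, Finset.mul_sum]
      refine Finset.sum_congr rfl fun α _ => ?_
      rw [smul_eval]
      simp only [b, map_mul, map_pow, map_prod]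
      have h3 : ∏ i, (eval x (pderiv i G)) ^ (α i : ℕ) =
          (∏ i, v i ^ (α i : ℕ)) * (eval x G) ^ (∑ i, (α i : ℕ)) := by
        rw [← Finset.prod_pow_eq_pow_sum, ← Finset.prod_mul_distrib]
        refine Finset.prod_congr rfl fun i _ => ?_
        rw [hv i, mul_pow]
      rw [h3]
      have h4 : (eval x G) ^ (k * M) =
          (eval x G) ^ (k * M - ∑ i, (α i : ℕ)) * (eval x G) ^ (∑ i, (α i : ℕ)) := by
        rw [← pow_add, Nat.sub_add_cancel (hsum α)]
      rw [h4]; ring
    rw [h1] at h2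
    exact (mul_eq_zero.1 h2.symm).resolve_left (pow_ne_zero _ hx)

end Vale.Agent.P054.T3.H109
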