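import Vale.Agent.P054.T3.H109.Warren
import Mathlib.LinearAlgebra.AffineSpace.FiniteDimensional

set_option autoImplicit false
set_option linter.all false

/-!
# P054 / T3 / H109: Warren's bound for a finite set with `finrank (vectorSpan S) ≤ k`
-/

namespace Vale.Agent.P054.T3.H109

open Finset MvPolynomial

/-- parametrise a submodule of dimension at most `k` by `k` vectors -/
theorem exists_param {V : Type*} [AddCommGroup V] [Module ℝ V] (W : Submodule ℝ V)
    [FiniteDimensional ℝ W] {k : ℕ} (hk : Module.finrank ℝ W ≤ k) :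
    ∃ w : Fin k → V, ∀ y ∈ W, ∃ x : Fin k → ℝ, y = ∑ i, x i • w i := by
  classical
  let b := Module.finBasis ℝ W
  refine ⟨fun i => if h : (i : ℕ) < Module.finrank ℝ W then (b ⟨i, h⟩ : V) else 0, ?_⟩
  intro y hy
  refine ⟨fun i => if h : (i : ℕ) < Module.finrank ℝ W then b.repr ⟨y, hy⟩ ⟨i, h⟩ else 0, ?_⟩
  have h1 : y = ∑ j, b.repr ⟨y, hy⟩ j • (b j : V) := by
    have h2 := congrArg (fun z : W => (z : V)) (b.sum_repr ⟨y, hy⟩)
    simp only [Submodule.coe_sum, Submodule.coe_smul] at h2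
    exact h2.symm
  refine h1.trans ?_
  let F : Fin k → V := fun i =>
    (if h : (i : ℕ) < Module.finrank ℝ W then b.repr ⟨y, hy⟩ ⟨i, h⟩ else 0) •
      (if h : (i : ℕ) < Module.finrank ℝ W then (b ⟨i, h⟩ : V) else 0)
  have h3 : ∀ j : Fin (Module.finrank ℝ W),
      b.repr ⟨y, hy⟩ j • (b j : V) = F (Fin.castLE hk j) := by
    intro j
    simp only [F, Fin.val_castLE, j.2, dif_pos]
  rw [Finset.sum_congr rfl fun j _ => h3 j]
  have h4 : ∑ j, F (Fin.castLE hk j) = ∑ i ∈ univ.image (Fin.castLE hk), F i := by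
    rw [Finset.sum_image fun a _ b _ h => Fin.castLE_injective hk h]
  rw [h4]
  refine Finset.sum_subset (subset_univ _) fun i _ hi => ?_
  have h5 : ¬ (i : ℕ) < Module.finrank ℝ W := by
    intro h
    exact hi (mem_image.2 ⟨⟨i, h⟩, mem_univ _, Fin.ext rfl⟩)
  simp only [F, h5, dif_neg, not_false_eq_true, smul_zero]

variable {σ : Type*}

/-- a finite set spanning a `k`-flat has at most `(k (D + 2)) ^ k` sign vectors -/
theorem card_sgn_span [Finite σ] {k J : ℕ} (f : Fin J → MvPolynomial σ ℝ) (S : Finset (σ → ℝ))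
    (hk : Module.finrank ℝ (vectorSpan ℝ (S : Set (σ → ℝ))) ≤ k)
    (h0 : ∀ y ∈ S, ∀ j, eval y (f j) ≠ 0) :
    (S.image (sgn f)).card ≤ (k * (∑ j, (f j).totalDegree + 2)) ^ k := by
  classical
  rcases S.eq_empty_or_nonempty with rfl | ⟨p, hp⟩
  · simp
  obtain ⟨w, hw⟩ := exists_param (vectorSpan ℝ (S : Set (σ → ℝ))) hk
  have := card_image_sgn_flat f S id p w (fun y hy => ?_) h0
  · simpa using this
  · obtain ⟨x, hx⟩ := hw (y - p) (vsub_mem_vectorSpan ℝ (mem_coe.2 hy) (mem_coe.2 hp))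
    refine ⟨x, ?_⟩
    funext a
    have h1 := congrFun hx a
    simp only [Pi.sub_apply, Finset.sum_apply, Pi.smul_apply, smul_eq_mul] at h1
    simp only [fl, id]
    linarith

/-- the same with an arbitrary real vector space `V` and an injective or not linear map
`φ : V → σ → ℝ` -/
theorem card_sgn_span_map {V : Type*} [AddCommGroup V] [Module ℝ V] [FiniteDimensional ℝ V]
    {k J : ℕ} (f : Fin J → MvPolynomial σ ℝ) (φ : V →ₗ[ℝ] (σ → ℝ)) (S : Finset V)
    (hk : Module.finrank ℝ (vectorSpan ℝ (S : Set V)) ≤ k)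
    (h0 : ∀ y ∈ S, ∀ j, eval (φ y) (f j) ≠ 0) :
    (S.image fun y => sgn f (φ y)).card ≤ (k * (∑ j, (f j).totalDegree + 2)) ^ k := by
  classical
  rcases S.eq_empty_or_nonempty with rfl | ⟨p, hp⟩
  · simp
  obtain ⟨w, hw⟩ := exists_param (vectorSpan ℝ (S : Set V)) hk
  refine card_image_sgn_flat f S (fun y => φ y) (φ p) (fun i => φ (w i)) (fun y hy => ?_) h0
  obtain ⟨x, hx⟩ := hw (y - p) (vsub_mem_vectorSpan ℝ (mem_coe.2 hy) (mem_coe.2 hp))
  refine ⟨x, ?_⟩
  have h2 : φ y = φ p + ∑ i, x i • φ (w i) := by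
    have h3 : y = p + ∑ i, x i • w i := by rw [← hx]; abel
    conv_lhs => rw [h3]
    rw [map_add, map_sum]
    simp only [map_smul]
  rw [h2]
  funext a
  simp [fl]

end Vale.Agent.P054.T3.H109
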