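import Vale.Agent.P054.T3.H109.RichLines

set_option autoImplicit false
set_option linter.all false

/-!
# P054 / T3 / H109: lines in the zero set of a plane curve, and the final count of rich pairs
-/

namespace Vale.Agent.P054.T3.H109

open Finset MvPolynomial Vale.Agent.P054.T2.H686 Vale.Agent.P054.T2.H269

variable {n : ℕ}

theorem cr_sub_left (x y z : Fin 2 → ℝ) : cr (x - y) z = cr x z - cr y z := by
  unfold cr; simp only [Pi.sub_apply]; ring

theorem cr_add_left (x y z : Fin 2 → ℝ) : cr (x + y) z = cr x z + cr y z := by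
  unfold cr; simp only [Pi.add_apply]; ring

theorem cr_smul_left (a : ℝ) (x z : Fin 2 → ℝ) : cr (a • x) z = a * cr x z := by
  unfold cr; simp only [Pi.smul_apply, smul_eq_mul]; ring

theorem cr_smul_right (a : ℝ) (x z : Fin 2 → ℝ) : cr x (a • z) = a * cr x z := by
  unfold cr; simp only [Pi.smul_apply, smul_eq_mul]; ring

theorem cr_sub_right (x y z : Fin 2 → ℝ) : cr x (y - z) = cr x y - cr x z := by
  unfold cr; simp only [Pi.sub_apply]; ring

theorem cr_self (x : Fin 2 → ℝ) : cr x x = 0 := by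
  unfold cr; ring

/-- `v ↦ cr v w` as a linear functional -/
noncomputable def crL (w : Fin 2 → ℝ) : Module.Dual ℝ (Fin 2 → ℝ) where
  toFun v := cr v w
  map_add' a b := cr_add_left a b w
  map_smul' a b := cr_smul_left a b w

theorem crL_apply (w v : Fin 2 → ℝ) : crL w v = cr v w := rfl

theorem exists_crL_ne {w : Fin 2 → ℝ} (hw : w ≠ 0) : ∃ v, crL w v ≠ 0 := by
  refine ⟨![w 1, -w 0], ?_⟩
  rw [crL_apply]
  unfold cr
  simp only [Matrix.cons_val_zero, Matrix.cons_val_one]
  intro h
  apply hw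
  have h1 : w 1 * w 1 + w 0 * w 0 = 0 := by linarith
  have h2 : w 0 = 0 := by nlinarith [mul_self_nonneg (w 0), mul_self_nonneg (w 1)]
  have h3 : w 1 = 0 := by nlinarith [mul_self_nonneg (w 0), mul_self_nonneg (w 1)]
  funext i
  fin_cases i
  · exact h2
  · exact h3

/-- a nonzero plane curve of degree `D` contains at most `D` lines spanned by `P` -/
theorem card_zero_lines (P : Finset (E n)) (φ : E n →ₗ[ℝ] (Fin 2 → ℝ))
    (h1 : ∀ x ∈ P, ∀ y ∈ P, x ≠ y → φ (y - x) 0 ≠ 0)
    (h2 : ∀ x ∈ P, ∀ y ∈ P, ∀ z ∈ P, x ≠ y → cr (φ (z - x)) (φ (y - x)) = 0 → onLine x y z)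
    (g : MvPolynomial (Fin 2) ℝ) (hg : g ≠ 0) (T : Finset (Finset (E n)))
    (hT : ∀ L ∈ T, ∃ p ∈ P.offDiag, ln P p = L ∧ resL g (φ p.1) (φ (p.2 - p.1)) = 0) :
    T.card ≤ g.totalDegree := by
  classical
  obtain ⟨x0, hx0⟩ : ∃ x0, eval x0 g ≠ 0 := by
    by_contra hcon
    push Not at hcon
    exact hg (MvPolynomial.funext fun x => by rw [hcon x, map_zero])
  choose! q hq1 hq2 hq3 using hT
  set u : Finset (E n) → Fin 2 → ℝ := fun L => φ (q L).1 - x0 with hu
  set d : Finset (E n) → Fin 2 → ℝ := fun L => φ ((q L).2 - (q L).1) with hd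
  set c : Finset (E n) → ℝ := fun L => cr (u L) (d L) with hc
  have hzero : ∀ L ∈ T, ∀ t : ℝ, eval (φ (q L).1 + t • d L) g = 0 := by
    intro L hL t
    rw [← resL_eval, hq3 L hL, Polynomial.eval_zero]
  have hmem : ∀ L ∈ T, (q L).1 ∈ P ∧ (q L).2 ∈ P ∧ (q L).1 ≠ (q L).2 := fun L hL =>
    mem_offDiag.1 (hq1 L hL)
  have hd0 : ∀ L ∈ T, d L 0 ≠ 0 := fun L hL =>
    h1 _ (hmem L hL).1 _ (hmem L hL).2.1 (hmem L hL).2.2
  have hc0 : ∀ L ∈ T, c L ≠ 0 := by
    intro L hL h0
    apply hx0
    have h3 := hzero L hL (-(u L 0 / d L 0))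
    have h4 : φ (q L).1 + (-(u L 0 / d L 0)) • d L = x0 := by
      have hd0' := hd0 L hL
      have h5 : u L 0 * d L 1 = u L 1 * d L 0 := by
        have : u L 0 * d L 1 - u L 1 * d L 0 = 0 := h0
        linarith
      funext i
      have hui : u L i = φ (q L).1 i - x0 i := rfl
      have h6 : (u L 0 / d L 0) * d L i = u L i := by
        fin_cases i
        · show u L 0 / d L 0 * d L 0 = u L 0
          field_simp
        · show u L 0 / d L 0 * d L 1 = u L 1
          field_simp
          linarith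
      rw [Pi.add_apply, Pi.smul_apply, smul_eq_mul, neg_mul, h6, hui]
      ring
    rw [h4] at h3
    exact h3
  have hdist : ∀ L ∈ T, ∀ L' ∈ T, L ≠ L' → c L' • d L - c L • d L' ≠ 0 := by
    intro L hL L' hL' hne h0
    apply hne
    have h3 : c L' • d L = c L • d L' := sub_eq_zero.1 h0
    -- `φ x' - φ x` is parallel to `d L`
    have h4 : cr (φ ((q L').1 - (q L).1)) (d L) = 0 := by
      have h5 : φ ((q L').1 - (q L).1) = u L' - u L := by
        rw [map_sub]; simp only [hu]; abel
      have h6 : c L' * cr (u L') (d L) = c L' * c L := by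
        have : c L' * cr (u L') (d L) = cr (u L') (c L' • d L) := by rw [cr_smul_right]
        rw [this, h3, cr_smul_right, mul_comm (c L')]
      have h7 := mul_left_cancel₀ (hc0 L' hL') h6
      rw [h5, cr_sub_left, h7]
      exact sub_self _
    have h5 : cr (d L') (d L) = 0 := by
      have h6 : c L' * cr (d L') (d L) = 0 := by
        have : c L' * cr (d L') (d L) = cr (d L') (c L' • d L) := by rw [cr_smul_right]
        rw [this, h3, cr_smul_right, cr_self, mul_zero]
      rcases mul_eq_zero.1 h6 with h7 | h7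
      · exact absurd h7 (hc0 L' hL')
      · exact h7
    have h6 : cr (φ ((q L').2 - (q L).1)) (d L) = 0 := by
      have h7 : φ ((q L').2 - (q L).1) = d L' + φ ((q L').1 - (q L).1) := by
        simp only [hd]
        rw [← map_add]
        congr 1
        abel
      rw [h7, cr_add_left, h4, h5, add_zero]
    have m := hmem L hL
    have m' := hmem L' hL'
    have h7 := h2 _ m.1 _ m.2.1 _ m'.1 m.2.2 h4
    have h8 := h2 _ m.1 _ m.2.1 _ m'.2.1 m.2.2 h6
    rw [← hq2 L hL, ← hq2 L' hL']
    exact (ln_eq (mem_ln.2 ⟨m'.1, h7⟩) (mem_ln.2 ⟨m'.2.1, h8⟩) m'.2.2).symm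
  -- a generic direction
  obtain ⟨v, hv⟩ := Module.Dual.exists_forall_ne_zero_of_forall_exists (K := ℝ)
    (fun i : T ⊕ (T.offDiag) => match i with
      | Sum.inl L => crL (d L)
      | Sum.inr p => crL (c p.1.2 • d p.1.1 - c p.1.1 • d p.1.2)) (by
      rintro (L | p)
      · exact exists_crL_ne fun h => hd0 L.1 L.2 (by rw [h]; rfl)
      · have hp := mem_offDiag.1 p.2
        exact exists_crL_ne (hdist _ hp.1 _ hp.2.1 hp.2.2))
  have hv1 : ∀ L ∈ T, cr v (d L) ≠ 0 := fun L hL => hv (Sum.inl ⟨L, hL⟩)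
  have hv2 : ∀ L ∈ T, ∀ L' ∈ T, L ≠ L' → cr v (c L' • d L - c L • d L') ≠ 0 :=
    fun L hL L' hL' hne => hv (Sum.inr ⟨(L, L'), mem_offDiag.2 ⟨hL, hL', hne⟩⟩)
  have hres : resL g x0 v ≠ 0 := by
    intro h
    apply hx0
    have h3 := resL_eval g x0 v 0
    rw [h, Polynomial.eval_zero, zero_smul, add_zero] at h3
    exact h3.symm
  have h3 : T.card ≤ (resL g x0 v).roots.toFinset.card := by
    refine Finset.card_le_card_of_injOn (fun L => c L / cr v (d L)) ?_ ?_
    · intro L hL
      rw [mem_coe] at hL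
      rw [mem_coe, Multiset.mem_toFinset, Polynomial.mem_roots hres, Polynomial.IsRoot, resL_eval]
      have h4 := hzero L hL (-(cr (u L) v) / cr (d L) v)
      have h5 : cr (d L) v ≠ 0 := by
        have := hv1 L hL
        intro h
        apply this
        unfold cr at h ⊢
        linarith
      have h6 : x0 + (c L / cr v (d L)) • v = φ (q L).1 + (-(cr (u L) v) / cr (d L) v) • d L := by
        have h7 : cr v (d L) = - cr (d L) v := by unfold cr; ring
        have h8 : φ (q L).1 = u L + x0 := by simp only [hu]; abel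
        rw [h7, h8]
        funext i
        simp only [Pi.add_apply, Pi.smul_apply, smul_eq_mul]
        have h9 : c L * v i = - (cr (d L) v * u L i) + cr (u L) v * d L i := by
          simp only [hc]
          unfold cr
          fin_cases i
          · show (u L 0 * d L 1 - u L 1 * d L 0) * v 0 = _
            simp only [Fin.zero_eta]
            ring
          · show (u L 0 * d L 1 - u L 1 * d L 0) * v 1 = _
            simp only [Fin.mk_one]
            ring
        field_simp
        linear_combination (-1 : ℝ) * h9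
      rw [h6]
      exact h4
    · intro L hL L' hL' h
      rw [mem_coe] at hL hL'
      by_contra hne
      apply hv2 L hL L' hL' hne
      simp only at h
      rw [div_eq_div_iff (hv1 L hL) (hv1 L' hL')] at h
      rw [cr_sub_right, cr_smul_right, cr_smul_right]
      linarith
  calc T.card ≤ _ := h3
    _ ≤ (resL g x0 v).roots.card := Multiset.toFinset_card_le _
    _ ≤ (resL g x0 v).natDegree := Polynomial.card_roots' _
    _ ≤ g.totalDegree := resL_natDegree _ _ _

open scoped Classical in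
/-- few pairs lie on rich lines -/
theorem card_rich_pairs (P : Finset (E n)) (L : ℕ)
    (hL : ∀ p ∈ P.offDiag, lineCard P p.1 p.2 ≤ L) (m : ℕ) :
    4 ^ m * (P.offDiag.filter fun p => 4 * (8 * 2 ^ m + 1) ≤ lineCard P p.1 p.2).card ≤
      4 * (8 * 2 ^ m + 1) * P.card ^ 2 + 4 ^ m * (8 * 2 ^ m * L ^ 2) := by
  classical
  obtain ⟨φ, h1, h2⟩ := exists_generic_plane P
  obtain ⟨f, hf0, hfd, hf⟩ := partition_exists (σ := Fin 2) (by simp) P φ m
  have hD : ∑ j, (f j).totalDegree ≤ 8 * 2 ^ m := by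
    refine hfd.trans (le_of_eq ?_)
    have : Fintype.card (Fin 2) = 2 := Fintype.card_fin 2
    simp only [this]
    norm_num
  set D := 8 * 2 ^ m with hDd
  set R := P.offDiag.filter fun p => 4 * (D + 1) ≤ lineCard P p.1 p.2 with hR
  set R1 := P.offDiag.filter fun p => 4 * (D + 1) ≤ lineCard P p.1 p.2 ∧
      ∀ j, resL (f j) (φ p.1) (φ (p.2 - p.1)) ≠ 0 with hR1
  set R2 := P.offDiag.filter fun p => ¬ ∀ j, resL (f j) (φ p.1) (φ (p.2 - p.1)) ≠ 0 with hR2
  have hR1c : R1.card ≤ 4 * (D + 1) * (samePairs f φ P).card := card_rich_out P f φ hD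
  have hsame : 4 ^ m * (samePairs f φ P).card ≤ P.card ^ 2 := by
    have := card_samePairs_le f φ P hf
    have h4 : (2:ℕ) ^ (Fintype.card (Fin 2) * m) = 4 ^ m := by
      rw [Fintype.card_fin, pow_mul]
      norm_num
    rwa [h4] at this
  -- lines in the zero set
  set g : MvPolynomial (Fin 2) ℝ := ∏ j, f j with hg
  have hg0 : g ≠ 0 := Finset.prod_ne_zero_iff.2 fun j _ => hf0 j
  have hgd : g.totalDegree ≤ D := (totalDegree_finsetProd _ _).trans hD
  have hT : (R2.image (ln P)).card ≤ D := by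
    refine (card_zero_lines P φ h1 h2 g hg0 _ ?_).trans hgd
    intro L' hL'
    obtain ⟨p, hp, rfl⟩ := mem_image.1 hL'
    rw [hR2, mem_filter] at hp
    obtain ⟨hp1, hp2⟩ := hp
    refine ⟨p, hp1, rfl, ?_⟩
    push Not at hp2
    obtain ⟨j, hj⟩ := hp2
    have : resL g (φ p.1) (φ (p.2 - p.1)) = ∏ j, resL (f j) (φ p.1) (φ (p.2 - p.1)) := by
      unfold resL
      rw [hg, map_prod]
    rw [this]
    exact Finset.prod_eq_zero (mem_univ j) hj
  have hR2c : R2.card ≤ D * L ^ 2 := by
    have h3 : R2.card ≤ L ^ 2 * (R2.image (ln P)).card := by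
      refine Finset.card_le_mul_card_image_of_maps_to (f := ln P)
        (fun p hp => mem_image_of_mem _ hp) _ ?_
      intro L' hL'
      obtain ⟨p, hp, rfl⟩ := mem_image.1 hL'
      have hp1 := (mem_filter.1 hp).1
      have h4 : (R2.filter fun q => ln P q = ln P p) ⊆ (ln P p) ×ˢ (ln P p) := by
        intro q hq
        rw [mem_filter] at hq
        have hq1 := (mem_filter.1 hq.1).1
        rw [mem_product]
        have h4 := fst_mem_ln hq1
        have h5 := snd_mem_ln hq1
        rw [hq.2] at h4 h5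
        exact ⟨h4, h5⟩
      refine (card_le_card h4).trans ?_
      rw [card_product, card_ln, ← sq]
      exact Nat.pow_le_pow_left (hL p hp1) 2
    refine h3.trans ?_
    rw [mul_comm]
    exact Nat.mul_le_mul_right _ hT
  have hsub : R ⊆ R1 ∪ R2 := by
    intro p hp
    rw [hR, mem_filter] at hp
    rw [mem_union, hR1, hR2, mem_filter, mem_filter]
    by_cases h : ∀ j, resL (f j) (φ p.1) (φ (p.2 - p.1)) ≠ 0
    · exact Or.inl ⟨hp.1, hp.2, h⟩
    · exact Or.inr ⟨hp.1, h⟩
  have hfin := (card_le_card hsub).trans (card_union_le _ _)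
  calc 4 ^ m * R.card ≤ 4 ^ m * (R1.card + R2.card) := Nat.mul_le_mul_left _ hfin
    _ = 4 ^ m * R1.card + 4 ^ m * R2.card := by ring
    _ ≤ 4 ^ m * (4 * (D + 1) * (samePairs f φ P).card) + 4 ^ m * (D * L ^ 2) :=
        Nat.add_le_add (Nat.mul_le_mul_left _ hR1c) (Nat.mul_le_mul_left _ hR2c)
    _ = 4 * (D + 1) * (4 ^ m * (samePairs f φ P).card) + 4 ^ m * (D * L ^ 2) := by ring
    _ ≤ 4 * (D + 1) * P.card ^ 2 + 4 ^ m * (D * L ^ 2) :=
        Nat.add_le_add_right (Nat.mul_le_mul_left _ hsame) _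

end Vale.Agent.P054.T3.H109
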